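import Vale.Agent.P134.LI.Fct

/-! P134, package R3: `StT3a → StT3b → StT3`. -/

set_option linter.all false

namespace Vale.Agent.P134.H88

open Vale.Agent.P134 Vale.Agent.P134.SM Vale.Agent.P134.LI MeasureTheory Filter Topology

variable {CX s3 δ W lam C1 μ c2 Cp ε κ R : ℝ} {u : R3 → ℝ} {B : Set R3} {η : R3 → ℝ}
  {w : ℝ → ℝ} {χ om b : R3 → ℝ}

/-- integrability of the two halves of the tangential terms. -/
lemma int_T3a (hS : SDat CX s3 δ W lam C1 u B η w χ om) (hP : PtF s3 μ c2 Cp ε κ W u B χ)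
    (hs : 0 < s3) (hb : BDat C1 R b) :
    Integrable (fun z : R3 × ℝ => w (phi u z.1) * rr u z.1 *
        (χ (xt u z.1 z.2) * (esq (cdx u (PhE s3 ε κ u η om b) z) / jj u z.1 z.2))) := by
  refine (Fct.fub hS hP hb (fun z hz => ?_) (fun z hz => ?_)).1
  · refine (Fct.wr_cont hS hP hs hb hz).mul ((Fct.xt_cont hS hP hs hb hz hS.chi2.continuous).mul
      (ContinuousAt.div ?_ (Fct.cb hS hP hs hb hz).j (Fct.phe_good hS hP hs hb hz).2.ne'))
    unfold esq
    exact tendsto_finset_sum _ fun i _ => (Fct.cdx_cont hS hP hs hb hz i).pow 2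
  · have e0 : esq (cdx u (PhE s3 ε κ u η om b) z) = 0 := by rw [Fct.cdx_zero hz]; simp [esq]
    rw [e0]; ring

lemma int_T3b (hS : SDat CX s3 δ W lam C1 u B η w χ om) (hP : PtF s3 μ c2 Cp ε κ W u B χ)
    (hs : 0 < s3) (hb : BDat C1 R b) :
    Integrable (fun z : R3 × ℝ => w (phi u z.1) * rr u z.1 *
        (PhE s3 ε κ u η om b z *
            ∑ i, cdx u (PhE s3 ε κ u η om b) z i * pd i χ (xt u z.1 z.2))) := by
  refine (Fct.fub hS hP hb (fun z hz => ?_) (fun z hz => ?_)).1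
  · refine (Fct.wr_cont hS hP hs hb hz).mul
      ((Fct.phe_cd hS hP hs hb).continuous.continuousAt.mul ?_)
    exact tendsto_finset_sum _ fun i _ => (Fct.cdx_cont hS hP hs hb hz i).mul
      (Fct.xt_cont hS hP hs hb hz (continuous_pd (hS.chi2.of_le (by norm_num))))
  · rw [image_eq_zero_of_notMem_tsupport hz]; ring

theorem T3_of (ha : StT3a) (hb : StT3b) : StT3 := by
  intro s3 C1 μ Cp hs hC1 hμ hμ1 hCp
  obtain ⟨Ca, Wa, hCa, hWa, Ha⟩ := ha s3 C1 μ Cp hs hC1 hμ hμ1 hCp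
  obtain ⟨Cb, Wb, hCb, hWb, Hb⟩ := hb s3 C1 μ Cp hs hC1 hμ hμ1 hCp
  refine ⟨Ca + Cb, max Wa Wb, by positivity, hWa.trans (le_max_left _ _), ?_⟩
  intro CX δ W lam c2 ε κ u B η w χ om hW hlW hS hP
  obtain ⟨A, HA⟩ := Ha CX δ W lam c2 ε κ u B η w χ om ((le_max_left _ _).trans hW) hlW hS hP
  obtain ⟨D, HD⟩ := Hb CX δ W lam c2 ε κ u B η w χ om ((le_max_right _ _).trans hW) hlW hS hP
  refine ⟨A + D, fun R b hb => ?_⟩
  have h1 := HA R b hb
  have h2 := HD R b hb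
  have hW1 : 1 ≤ W := (hWa.trans (le_max_left _ _)).trans hW
  have e : ∫ z : R3 × ℝ, w (phi u z.1) * rr u z.1 *
        (χ (xt u z.1 z.2) * (esq (cdx u (PhE s3 ε κ u η om b) z) / jj u z.1 z.2)
          + PhE s3 ε κ u η om b z *
            ∑ i, cdx u (PhE s3 ε κ u η om b) z i * pd i χ (xt u z.1 z.2))
      = (∫ z : R3 × ℝ, w (phi u z.1) * rr u z.1 *
        (χ (xt u z.1 z.2) * (esq (cdx u (PhE s3 ε κ u η om b) z) / jj u z.1 z.2)))
        + ∫ z : R3 × ℝ, w (phi u z.1) * rr u z.1 *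
        (PhE s3 ε κ u η om b z *
            ∑ i, cdx u (PhE s3 ε κ u η om b) z i * pd i χ (xt u z.1 z.2)) := by
    rw [← integral_add (int_T3a hS hP hs hb) (int_T3b hS hP hs hb)]
    refine integral_congr_ae (Eventually.of_forall fun z => ?_)
    ring
  rw [e]
  have hJ : 0 ≤ ∫ x, w (phi u x) * rr u x * (η x * om x) ^ 2 * (qq u x + κ ^ 2) := by
    refine integral_nonneg fun x => ?_
    have h3 := (hS.wb (phi u x)).1
    have h4 := H147.rr_nonneg u x
    have h5 := H147.qq_nonneg hS.hs.toSol hS.hs.lt x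
    positivity
  have hT : 0 ≤ ∑' b : B, Gw lam b ^ 2 := tsum_nonneg fun b => sq_nonneg _
  have hl := hS.lam0
  have hep := hP.ep0
  have k1 : (Ca + Cb) * (1 / W + ε)
      * (∫ x, w (phi u x) * rr u x * (η x * om x) ^ 2 * (qq u x + κ ^ 2))
      = Ca * (1 / W + ε) * (∫ x, w (phi u x) * rr u x * (η x * om x) ^ 2 * (qq u x + κ ^ 2))
      + Cb * (1 / W + ε) * (∫ x, w (phi u x) * rr u x * (η x * om x) ^ 2 * (qq u x + κ ^ 2)) := by
    ring
  have k2 : 0 ≤ Ca * lam * W ^ 4 * (∑' b : B, Gw lam b ^ 2) := by positivity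
  have k3 : (A + D) / R = A / R + D / R := add_div _ _ _
  rw [k1, k3]
  have k4 : ((Ca + Cb) * lam * W ^ 4 + (Ca + Cb) * Real.exp (-W)) * (∑' b : B, Gw lam b ^ 2)
      = Ca * lam * W ^ 4 * (∑' b : B, Gw lam b ^ 2)
        + Ca * Real.exp (-W) * (∑' b : B, Gw lam b ^ 2)
        + (Cb * lam * W ^ 4 + Cb * Real.exp (-W)) * (∑' b : B, Gw lam b ^ 2) := by ring
  rw [k4]
  have k5 : (1 + μ) * sig0 * (∫ x, w (phi u x) * rr u x * gs η x)
      = (1 + μ / 2) * sig0 * (∫ x, w (phi u x) * rr u x * gs η x)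
        + μ / 2 * sig0 * (∫ x, w (phi u x) * rr u x * gs η x) := by ring
  rw [k5]
  linarith

end Vale.Agent.P134.H88
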