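import Vale.Agent.P134.LI.Defs
import Vale.Agent.P134.SM.Ibp

/-! P134, package R3: regularity of the geometric quantities of `LI/Defs`, `nᵀ C = 0`. -/

set_option linter.all false

namespace Vale.Agent.P134.H88

open Vale.Agent.P134 Vale.Agent.P134.SM Vale.Agent.P134.LI MeasureTheory Filter Topology

variable {u : R3 → ℝ} {x : R3} {t : ℝ} {i j k : Fin 3}

lemma phi_contDiff (hu : Sol u) (hl : ∀ x, |u x| < 1) (m : ℕ) : ContDiff ℝ m (phi u) := by
  have h := Sol.contDiff_nat hu m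
  unfold phi
  refine contDiff_const.mul (ContDiff.sub ?_ ?_)
  · refine (contDiff_const.add h).log (fun x => ?_)
    have := abs_lt.mp (hl x)
    linarith
  · refine (contDiff_const.sub h).log (fun x => ?_)
    have := abs_lt.mp (hl x)
    linarith

section general

variable {n : ℕ} {p : (Fin n → ℝ) → ℝ} {y : Fin n → ℝ}

lemma wn_cda (hp : ∀ m : ℕ, ContDiff ℝ m p) (h : 0 < gs p y) (m : ℕ) : ContDiffAt ℝ m (wn p) y :=
  (gs_contDiff (m := m) (by exact_mod_cast hp (m + 1))).contDiffAt.sqrt h.ne'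

lemma nu_cda (hp : ∀ m : ℕ, ContDiff ℝ m p) (h : 0 < gs p y) (i : Fin n) (m : ℕ) :
    ContDiffAt ℝ m (nu p i) y := by
  unfold nu
  exact (contDiff_pd (k := m) (by exact_mod_cast hp (m + 1))).contDiffAt.div
    (wn_cda hp h m) (wn_pos h).ne'

lemma pd_nu_cda (hp : ∀ m : ℕ, ContDiff ℝ m p) (h : 0 < gs p y) (i j : Fin n) (m : ℕ) :
    ContDiffAt ℝ m (pd j (nu p i)) y :=
  cda_pd (by exact_mod_cast nu_cda hp h i (m + 1))

lemma mc_cda (hp : ∀ m : ℕ, ContDiff ℝ m p) (h : 0 < gs p y) (m : ℕ) :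
    ContDiffAt ℝ m (mc p) y := by
  unfold mc
  exact ContDiffAt.sum fun i _ => pd_nu_cda hp h i i m

lemma gs_ev (hp : ∀ m : ℕ, ContDiff ℝ m p) (h : 0 < gs p y) : ∀ᶠ z in 𝓝 y, 0 < gs p z :=
  (gs_contDiff (m := 0) (by exact_mod_cast hp 1)).continuous.continuousAt.eventually
    (lt_mem_nhds h)

/-- `∑ n_i ∂_j n_i = 0`. -/
lemma nu_pd_nu (hp : ∀ m : ℕ, ContDiff ℝ m p) (h : 0 < gs p y) (j : Fin n) :
    ∑ i, nu p i y * pd j (nu p i) y = 0 := by
  have e : (fun z => ∑ i, nu p i z ^ 2) =ᶠ[𝓝 y] fun _ => 1 := by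
    filter_upwards [gs_ev hp h] with z hz
    exact sum_nu_sq hz
  have h1 : pd j (fun z => ∑ i, nu p i z ^ 2) y = 0 := by
    rw [pd_congr e, pd_const]
  have hd : ∀ i, DifferentiableAt ℝ (nu p i) y := fun i =>
    (nu_cda hp h i 1).differentiableAt (by norm_num)
  rw [pd_sum (F := fun i z => nu p i z ^ 2) Finset.univ (fun i _ => (hd i).fun_pow 2)] at h1
  simp_rw [pd_sq (hd _)] at h1
  have h2 : ∑ i, 2 * nu p i y * pd j (nu p i) y = 2 * ∑ i, nu p i y * pd j (nu p i) y := by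
    rw [Finset.mul_sum]; exact Finset.sum_congr rfl fun i _ => by ring
  rw [h2] at h1
  linarith

end general

lemma rr_cda (hp : ∀ m : ℕ, ContDiff ℝ m (phi u)) (h : 0 < gs (phi u) x) (m : ℕ) : ContDiffAt ℝ m (rr u) x :=
  wn_cda hp h m

lemma nn_cda (hp : ∀ m : ℕ, ContDiff ℝ m (phi u)) (h : 0 < gs (phi u) x) (i : Fin 3) (m : ℕ) :
    ContDiffAt ℝ m (fun y => nn u y i) x :=
  nu_cda hp h i m

lemma hh_cda (hp : ∀ m : ℕ, ContDiff ℝ m (phi u)) (h : 0 < gs (phi u) x) (m : ℕ) : ContDiffAt ℝ m (hh u) x :=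
  mc_cda hp h m

lemma aa_cda (hp : ∀ m : ℕ, ContDiff ℝ m (phi u)) (h : 0 < gs (phi u) x) (i j : Fin 3) (m : ℕ) :
    ContDiffAt ℝ m (aa u i j) x := by
  unfold aa
  refine (pd_nu_cda hp h i j m).sub (ContDiffAt.mul ?_ ?_)
  · exact ContDiffAt.sum fun k _ =>
      (pd_nu_cda hp h i k m).mul (nu_cda hp h k m)
  · exact nu_cda hp h j m

lemma a2_cda (hp : ∀ m : ℕ, ContDiff ℝ m (phi u)) (h : 0 < gs (phi u) x) (m : ℕ) : ContDiffAt ℝ m (a2 u) x := by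
  unfold a2
  exact ContDiffAt.sum fun i _ => ContDiffAt.sum fun j _ => (aa_cda hp h i j m).pow 2

lemma kk_cda (hp : ∀ m : ℕ, ContDiff ℝ m (phi u)) (h : 0 < gs (phi u) x) (m : ℕ) : ContDiffAt ℝ m (kk u) x := by
  unfold kk
  exact (((hh_cda hp h m).pow 2).sub (a2_cda hp h m)).div_const _

lemma pt_cda (hp : ∀ m : ℕ, ContDiff ℝ m (phi u)) (h : 0 < gs (phi u) x) (i j : Fin 3) (m : ℕ) :
    ContDiffAt ℝ m (pt u i j) x := by
  unfold pt
  exact contDiffAt_const.sub ((nu_cda hp h i m).mul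
    (nu_cda hp h j m))

/-- joint regularity on `{∇φ ≠ 0} × ℝ` -/
lemma jj_cda (hp : ∀ m : ℕ, ContDiff ℝ m (phi u)) (h : 0 < gs (phi u) x) (t : ℝ) (m : ℕ) :
    ContDiffAt ℝ m (fun z : R3 × ℝ => jj u z.1 z.2) (x, t) := by
  have h1 : ContDiffAt ℝ m (fun z : R3 × ℝ => hh u z.1) (x, t) :=
    (hh_cda hp h m).comp (x, t) contDiffAt_fst
  have h2 : ContDiffAt ℝ m (fun z : R3 × ℝ => kk u z.1) (x, t) :=
    (kk_cda hp h m).comp (x, t) contDiffAt_fst
  have h3 : ContDiffAt ℝ m (fun z : R3 × ℝ => z.2) (x, t) := contDiffAt_snd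
  unfold jj
  exact (contDiffAt_const.add (h3.mul h1)).add ((h3.pow 2).mul h2)

lemma cc_cda (hp : ∀ m : ℕ, ContDiff ℝ m (phi u)) (h : 0 < gs (phi u) x) (t : ℝ) (i j : Fin 3) (m : ℕ) :
    ContDiffAt ℝ m (fun z : R3 × ℝ => cc u i j z.1 z.2) (x, t) := by
  have h1 : ContDiffAt ℝ m (fun z : R3 × ℝ => hh u z.1) (x, t) :=
    (hh_cda hp h m).comp (x, t) contDiffAt_fst
  have h2 : ContDiffAt ℝ m (fun z : R3 × ℝ => pt u i j z.1) (x, t) :=
    ContDiffAt.comp (g := pt u i j) (f := fun z : R3 × ℝ => z.1) (x, t) (pt_cda hp h i j m)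
      contDiffAt_fst
  have h4 : ContDiffAt ℝ m (fun z : R3 × ℝ => aa u i j z.1) (x, t) :=
    ContDiffAt.comp (g := aa u i j) (f := fun z : R3 × ℝ => z.1) (x, t) (aa_cda hp h i j m)
      contDiffAt_fst
  have h3 : ContDiffAt ℝ m (fun z : R3 × ℝ => z.2) (x, t) := contDiffAt_snd
  unfold cc
  exact h2.add (h3.mul ((h1.mul h2).sub h4))

lemma xt_cda (hp : ∀ m : ℕ, ContDiff ℝ m (phi u)) (h : 0 < gs (phi u) x) (t : ℝ) (m : ℕ) :
    ContDiffAt ℝ m (fun z : R3 × ℝ => xt u z.1 z.2) (x, t) := by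
  rw [contDiffAt_pi]
  intro i
  have h1 : ContDiffAt ℝ m (fun z : R3 × ℝ => z.1 i) (x, t) :=
    ((contDiff_apply ℝ ℝ i).comp contDiff_fst).contDiffAt
  have h2 : ContDiffAt ℝ m (fun z : R3 × ℝ => nn u z.1 i) (x, t) :=
    (nn_cda hp h i m).comp (x, t) contDiffAt_fst
  have h3 : ContDiffAt ℝ m (fun z : R3 × ℝ => z.2) (x, t) := contDiffAt_snd
  exact h1.add (h3.mul h2)

lemma nn_unit (h : 0 < gs (phi u) x) : ∑ i, nn u x i ^ 2 = 1 := sum_nu_sq h

/-- `nᵀ A = 0`. -/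
lemma nn_aa (hp : ∀ m : ℕ, ContDiff ℝ m (phi u)) (h : 0 < gs (phi u) x) (j : Fin 3) : ∑ i, nn u x i * aa u i j x = 0 := by
  have h1 := nu_pd_nu hp h
  have e : ∑ i, nn u x i * aa u i j x
      = ∑ i, nu (phi u) i x * pd j (nu (phi u) i) x
        - (∑ k, nu (phi u) k x * ∑ i, nu (phi u) i x * pd k (nu (phi u) i) x) *
          nu (phi u) j x := by
    unfold aa nn
    simp only [Fin.sum_univ_three]
    ring
  rw [e, h1 j]
  simp only [h1, mul_zero, Finset.sum_const_zero, zero_mul, sub_zero]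

/-- `nᵀ P = 0`. -/
lemma nn_pt (h : 0 < gs (phi u) x) (j : Fin 3) : ∑ i, nn u x i * pt u i j x = 0 := by
  have h1 := nn_unit h
  have e : ∑ i, nn u x i * pt u i j x = nn u x j * (1 - ∑ i, nn u x i ^ 2) := by
    unfold pt nn
    fin_cases j <;> simp [Fin.sum_univ_three] <;> ring
  rw [e, h1]; ring

/-- `nᵀ C = 0`. -/
lemma nn_cc (hp : ∀ m : ℕ, ContDiff ℝ m (phi u)) (h : 0 < gs (phi u) x) (j : Fin 3) (t : ℝ) :
    ∑ i, nn u x i * cc u i j x t = 0 := by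
  have h1 := nn_aa hp h j
  have h2 := nn_pt h j
  have e : ∑ i, nn u x i * cc u i j x t
      = (1 + t * hh u x) * ∑ i, nn u x i * pt u i j x - t * ∑ i, nn u x i * aa u i j x := by
    unfold cc
    simp only [Fin.sum_univ_three]
    ring
  rw [e, h1, h2]; ring

lemma pd_phi (h : 0 < gs (phi u) x) (i : Fin 3) : pd i (phi u) x = rr u x * nn u x i :=
  pd_eq_wn_mul_nu h i

end Vale.Agent.P134.H88
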