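import Vale.Agent.P134.LI.Blocks
import Vale.Agent.P134.H586.LI3

/-! P134, package R3: block `StLI3` (compactly supported `a`, arbitrary weight `β`). -/

set_option linter.all false

namespace Vale.Agent.P134.H88

open Vale.Agent.P134 Vale.Agent.P134.SM Vale.Agent.P134.LI MeasureTheory Filter Topology

theorem stLI3 : StLI3 := by
  intro V hV X R ε hX hR β hβ hβ0 a ha hc hs
  have hXi : ∀ i, ContDiff ℝ 1 (fun y => X y i) := fun i => contDiff_pi.mp hX i
  have hd := ha.differentiable (by norm_num)
  have hβd := hβ.differentiable (by norm_num)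
  have hXd : ∀ i, Differentiable ℝ (fun y => X y i) := fun i => (hXi i).differentiable (by norm_num)
  have hY : ∀ i, ContDiff ℝ 1 (fun x => a x * (a x * (β x * X x i))) := fun i =>
    ha.mul (ha.mul (hβ.mul (hXi i)))
  have h := int_div_zero (X := fun i x => a x * (a x * (β x * X x i))) hY
    (fun i => hc.mul_right)
  have e : ∀ x i, pd i (fun x => a x * (a x * (β x * X x i))) x
      = a x ^ 2 * (X x i * pd i β x)
        + β x * (2 * a x * (pd i a x * X x i) + a x ^ 2 * pd i (fun y => X y i) x) := by
    intro x i
    rw [pd_mul (g := fun x => a x * (β x * X x i)) (hd x) (by fun_prop),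
      pd_mul (g := fun x => β x * X x i) (hd x) (by fun_prop),
      pd_mul (g := fun x => X x i) (hβd x) (hXd i x)]
    ring
  have e2 : ∀ x, ∑ i, pd i (fun x => a x * (a x * (β x * X x i))) x
      ≤ a x ^ 2 * (∑ i, X x i * pd i β x) + β x * (gs a x + (V x + ε) * a x ^ 2) := by
    intro x
    simp_rw [e]
    rw [Finset.sum_add_distrib, ← Finset.mul_sum, ← Finset.mul_sum, Finset.sum_add_distrib,
      ← Finset.mul_sum, ← Finset.mul_sum]
    have h2 : 2 * a x * ∑ i, pd i a x * X x i ≤ gs a x + a x ^ 2 * ∑ i, X x i ^ 2 := by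
      have h3 : 0 ≤ ∑ i, (pd i a x - a x * X x i) ^ 2 := Finset.sum_nonneg fun _ _ => sq_nonneg _
      have h4 : ∑ i, (pd i a x - a x * X x i) ^ 2
          = gs a x - 2 * a x * ∑ i, pd i a x * X x i + a x ^ 2 * ∑ i, X x i ^ 2 := by
        unfold gs
        rw [Finset.mul_sum, Finset.mul_sum, ← Finset.sum_sub_distrib, ← Finset.sum_add_distrib]
        exact Finset.sum_congr rfl fun i _ => by ring
      linarith
    have h5 : a x ^ 2 * (∑ i, pd i (fun y => X y i) x + ∑ i, X x i ^ 2)
        ≤ a x ^ 2 * (V x + ε) := by
      by_cases hb : a x = 0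
      · rw [hb]; simp
      · have hx : x ∈ tsupport a := subset_tsupport _ hb
        have h1 := hR x (hs x hx)
        have e3 : dvg X x + dot (X x) (X x)
            = ∑ i, pd i (fun y => X y i) x + ∑ i, X x i ^ 2 := by
          unfold dvg dot
          congr 1
          exact Finset.sum_congr rfl fun i _ => by ring
        rw [e3] at h1
        exact mul_le_mul_of_nonneg_left h1 (sq_nonneg _)
    have h6 := mul_le_mul_of_nonneg_left (show 2 * a x * (∑ i, pd i a x * X x i)
        + a x ^ 2 * (∑ i, pd i (fun y => X y i) x) ≤ gs a x + (V x + ε) * a x ^ 2 by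
      linarith) (hβ0 x)
    linarith
  have hcc : HasCompactSupport fun x => a x ^ 2 * ∑ i, X x i * pd i β x := by
    refine HasCompactSupport.intro hc fun x hx => ?_
    rw [image_eq_zero_of_notMem_tsupport hx]; ring
  have i1 : Integrable (fun x => a x ^ 2 * ∑ i, X x i * pd i β x) := by
    refine Continuous.integrable_of_hasCompactSupport ?_ hcc
    exact (ha.continuous.pow 2).mul (continuous_finsetSum _ fun i _ =>
      (hXi i).continuous.mul (continuous_pd hβ))
  have i2 : Integrable (fun x => β x * (gs a x + (V x + ε) * a x ^ 2)) := by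
    refine Continuous.integrable_of_hasCompactSupport ?_ ?_
    · exact hβ.continuous.mul ((H586.cont_gs ha).add ((hV.add continuous_const).mul
        (ha.continuous.pow 2)))
    · refine HasCompactSupport.intro hc fun x hx => ?_
      have : gs a x = 0 := by
        unfold gs
        simp [pd_eq_zero_of_notMem_tsupport hx]
      rw [image_eq_zero_of_notMem_tsupport hx, this]; ring
  have i3 : Integrable (fun x => ∑ i, pd i (fun x => a x * (a x * (β x * X x i))) x) :=
    integrable_finset_sum _ fun i _ => (continuous_pd (hY i)).integrable_of_hasCompactSupport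
      (hasCompactSupport_pd hc.mul_right)
  have h7 := integral_mono i3 (i1.add i2) e2
  rw [h] at h7
  simp only [Pi.add_apply] at h7
  rw [integral_add i1 i2] at h7
  linarith

end Vale.Agent.P134.H88
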