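import Vale.Agent.P134.H88.SC
import Vale.Agent.P134.H88.LI3
import Vale.Agent.P134.H491.LI1
import Vale.Agent.P134.H790.LI3f

/-! P134, package R3: `StLI2` and the combination `StSC`, unconditionally. -/

set_option linter.all false

namespace Vale.Agent.P134.H88

open Vale.Agent.P134 Vale.Agent.P134.SM Vale.Agent.P134.LI MeasureTheory Filter Topology

theorem stLI2 : StLI2 := LI2 H491.stLI1int

theorem li3fc : LI3fc := fun u hu h G hG hGc β hβ => H790.LI3f u hu h G hG hGc β hβ

theorem stSC : StSC := SC H491.stLI1int stLI3 li3fc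

end Vale.Agent.P134.H88
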