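import Vale.Agent.P134.H88.Reg
import Vale.Agent.P134.H147.Base
import Mathlib.Analysis.Calculus.Deriv.Abs

/-! P134, package R3: regularity of the profile `prf`, of `dep` and `zt`. -/

set_option linter.all false

namespace Vale.Agent.P134.H88

open Vale.Agent.P134 Vale.Agent.P134.SM Vale.Agent.P134.LI MeasureTheory Filter Topology

variable {u : R3 → ℝ} {ε κ : ℝ}

lemma g1_eq' : g1 = fun s => 1 / (Real.sqrt 2 * Real.cosh (s / Real.sqrt 2) ^ 2) := by
  funext s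
  unfold g1 g0
  have h := Real.cosh_sq (s / Real.sqrt 2)
  have hc := Real.cosh_pos (s / Real.sqrt 2)
  have hs : 0 < Real.sqrt 2 := by positivity
  rw [Real.tanh_eq_sinh_div_cosh]
  field_simp
  rw [h]; ring

lemma g1_contDiff (m : ℕ) : ContDiff ℝ m g1 := by
  rw [g1_eq']
  refine contDiff_const.div ?_ (fun s => ?_)
  · exact contDiff_const.mul ((Real.contDiff_cosh.comp (contDiff_id.div_const _)).pow 2)
  · have hc := Real.cosh_pos (s / Real.sqrt 2)
    positivity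

lemma qq_contDiff (hp : ∀ m : ℕ, ContDiff ℝ m (phi u)) (m : ℕ) : ContDiff ℝ m (qq u) := by
  unfold qq
  exact contDiff_const.sub (gs_contDiff (m := m) (by exact_mod_cast hp (m + 1)))

lemma dep_arg_pos (hu : Sol u) (hl : ∀ x, |u x| < 1) (hε : 0 < ε) (hκ : 0 < κ) (x : R3) :
    0 < ε * (qq u x + κ ^ 2) := by
  have := H147.qq_nonneg hu hl x
  positivity

lemma dep_contDiff (hu : Sol u) (hl : ∀ x, |u x| < 1) (hε : 0 < ε) (hκ : 0 < κ) (m : ℕ) :
    ContDiff ℝ m (dep ε κ u) := by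
  unfold dep
  refine ContDiff.div_const (ContDiff.log ?_ (fun x => ?_)) _
  · refine contDiff_const.div ?_ (fun x => (dep_arg_pos hu hl hε hκ x).ne')
    exact contDiff_const.mul ((qq_contDiff (phi_contDiff hu hl) m).add contDiff_const)
  · exact (one_div_pos.mpr (dep_arg_pos hu hl hε hκ x)).ne'

lemma dep_pos (hu : Sol u) (hl : ∀ x, |u x| < 1) (hε : 0 < ε) (hε1 : ε < 1 / 2) (hκ : 0 < κ)
    (hκ1 : κ ≤ 1) (x : R3) : 0 < dep ε κ u x := by
  unfold dep
  refine div_pos (Real.log_pos ?_) (by positivity)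
  have h1 := dep_arg_pos hu hl hε hκ x
  rw [lt_div_iff₀ h1]
  have h2 := H147.qq_le_one u x
  have h3 : κ ^ 2 ≤ 1 := pow_le_one₀ hκ.le hκ1
  nlinarith [H147.qq_nonneg hu hl x]

lemma qq_lt_one {x : R3} (hr : 0 < rr u x) : qq u x < 1 := by
  have h := H147.rr_sq u x
  unfold qq
  nlinarith

lemma dep_pos' (hu : Sol u) (hl : ∀ x, |u x| < 1) (hε : 0 < ε) (hε1 : ε ≤ 1 / 2) (hκ : 0 < κ)
    (hκ1 : κ ≤ 1) {x : R3} (hr : 0 < rr u x) : 0 < dep ε κ u x := by
  unfold dep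
  refine div_pos (Real.log_pos ?_) (by positivity)
  have h1 := dep_arg_pos hu hl hε hκ x
  rw [lt_div_iff₀ h1]
  have h2 := qq_lt_one hr
  have h3 : κ ^ 2 ≤ 1 := pow_le_one₀ hκ.le hκ1
  nlinarith [H147.qq_nonneg hu hl x]

lemma dep_le (hu : Sol u) (hl : ∀ x, |u x| < 1) (hε : 0 < ε) (hκ : 0 < κ) (x : R3) :
    dep ε κ u x ≤ Real.log (1 / (ε * κ ^ 2)) / (2 * Real.sqrt 2) := by
  unfold dep
  have h0 := H147.qq_nonneg hu hl x
  refine div_le_div_of_nonneg_right (Real.log_le_log ?_ ?_) (by positivity)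
  · exact one_div_pos.mpr (dep_arg_pos hu hl hε hκ x)
  · refine one_div_le_one_div_of_le (by positivity) ?_
    nlinarith

/-- `zt τ t` is `C^m` in `(τ, t)` for `τ > 0`. -/
lemma zt_cda {p : ℝ × ℝ} (hp : 0 < p.1) (m : ℕ) :
    ContDiffAt ℝ m (fun p : ℝ × ℝ => zt p.1 p.2) p := by
  by_cases h : p.2 = 0
  · have e : (fun p : ℝ × ℝ => zt p.1 p.2) =ᶠ[𝓝 p] fun _ => 1 := by
      have h1 : ∀ᶠ q : ℝ × ℝ in 𝓝 p, |q.2| < q.1 := by
        refine (continuous_snd.abs.tendsto p).eventually_lt (continuous_fst.tendsto p) ?_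
        rw [h]; simpa using hp
      filter_upwards [h1] with q hq
      unfold zt
      exact Real.smoothTransition.one_of_one_le (by linarith)
    exact contDiffAt_const.congr_of_eventuallyEq e
  · unfold zt
    refine (Real.smoothTransition.contDiff.contDiffAt).comp p ?_
    refine ((contDiffAt_fst.add contDiffAt_const).sub ?_)
    exact (contDiffAt_abs h).comp p contDiffAt_snd

lemma zt_one {τ t : ℝ} (h : |t| ≤ τ) : zt τ t = 1 := by
  unfold zt; exact Real.smoothTransition.one_of_one_le (by linarith)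

lemma zt_zero {τ t : ℝ} (h : τ + 1 ≤ |t|) : zt τ t = 0 := by
  unfold zt; exact Real.smoothTransition.zero_of_nonpos (by linarith)

lemma zt_nonneg (τ t : ℝ) : 0 ≤ zt τ t := Real.smoothTransition.nonneg _
lemma zt_le_one (τ t : ℝ) : zt τ t ≤ 1 := Real.smoothTransition.le_one _

lemma prf_contDiff (hu : Sol u) (hl : ∀ x, |u x| < 1) (hε : 0 < ε) (hε1 : ε < 1 / 2) (hκ : 0 < κ)
    (hκ1 : κ ≤ 1) (m : ℕ) : ContDiff ℝ m (fun z : R3 × ℝ => prf ε κ u z.1 z.2) := by
  unfold prf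
  refine ContDiff.mul ?_ ?_
  · exact (g1_contDiff m).comp (((phi_contDiff hu hl m).comp contDiff_fst).add contDiff_snd)
  · rw [contDiff_iff_contDiffAt]
    intro z
    exact (zt_cda (p := (dep ε κ u z.1, z.2)) (dep_pos hu hl hε hε1 hκ hκ1 z.1) m).comp z
      (f := fun z : R3 × ℝ => (dep ε κ u z.1, z.2))
      (((dep_contDiff hu hl hε hκ m).comp contDiff_fst).prodMk contDiff_snd).contDiffAt

lemma prf_cda (hu : Sol u) (hl : ∀ x, |u x| < 1) (hε : 0 < ε) (hε1 : ε ≤ 1 / 2) (hκ : 0 < κ)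
    (hκ1 : κ ≤ 1) (m : ℕ) {z : R3 × ℝ} (hr : 0 < rr u z.1) :
    ContDiffAt ℝ m (fun z : R3 × ℝ => prf ε κ u z.1 z.2) z := by
  unfold prf
  refine ContDiffAt.mul ?_ ?_
  · exact ((g1_contDiff m).comp
      (((phi_contDiff hu hl m).comp contDiff_fst).add contDiff_snd)).contDiffAt
  · exact (zt_cda (p := (dep ε κ u z.1, z.2)) (dep_pos' hu hl hε hε1 hκ hκ1 hr) m).comp z
      (f := fun z : R3 × ℝ => (dep ε κ u z.1, z.2))
      (((dep_contDiff hu hl hε hκ m).comp contDiff_fst).prodMk contDiff_snd).contDiffAt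

lemma prf_cda_t (hu : Sol u) (hl : ∀ x, |u x| < 1) (hε : 0 < ε) (hε1 : ε ≤ 1 / 2) (hκ : 0 < κ)
    (hκ1 : κ ≤ 1) (m : ℕ) {x : R3} (hr : 0 < rr u x) : ContDiff ℝ m (prf ε κ u x) := by
  rw [contDiff_iff_contDiffAt]
  intro t
  exact (prf_cda hu hl hε hε1 hκ hκ1 m (z := (x, t)) hr).comp t
    (f := fun t : ℝ => ((x, t) : R3 × ℝ)) (contDiffAt_const.prodMk contDiffAt_id)

lemma prf_continuous (hu : Sol u) (hl : ∀ x, |u x| < 1) (hε : 0 < ε) (hκ : 0 < κ) :
    Continuous (fun z : R3 × ℝ => prf ε κ u z.1 z.2) := by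
  unfold prf zt
  refine ((g1_contDiff 0).continuous.comp
    (((phi_contDiff hu hl 0).continuous.comp continuous_fst).add continuous_snd)).mul ?_
  exact Real.smoothTransition.continuous.comp
    ((((dep_contDiff hu hl hε hκ 0).continuous.comp continuous_fst).add continuous_const).sub
      continuous_snd.abs)

lemma prf_zero {x : R3} {t : ℝ} (h : dep ε κ u x + 1 ≤ |t|) : prf ε κ u x t = 0 := by
  unfold prf; rw [zt_zero h, mul_zero]

lemma prf_nonneg (x : R3) (t : ℝ) : 0 ≤ prf ε κ u x t :=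
  mul_nonneg (H147.g1_pos _).le (zt_nonneg _ _)

lemma prf_le (x : R3) (t : ℝ) : prf ε κ u x t ≤ g1 (phi u x + t) := by
  unfold prf
  calc _ ≤ g1 (phi u x + t) * 1 :=
        mul_le_mul_of_nonneg_left (zt_le_one _ _) (H147.g1_pos _).le
    _ = _ := mul_one _

end Vale.Agent.P134.H88
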