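import Vale.Agent.P134.H88.Reg
import Vale.Agent.P134.LI.Blocks
import Mathlib.Topology.ContinuousMap.Weierstrass
import Mathlib.Analysis.Calculus.ContDiff.Polynomial

/-! P134, package R3: LI2 from the integrated identity LI1int. -/

set_option linter.all false

namespace Vale.Agent.P134.H88

open Vale.Agent.P134 Vale.Agent.P134.SM Vale.Agent.P134.LI MeasureTheory Filter Topology

section calc1

variable {Φ : R3 × ℝ → ℝ} {z : R3 × ℝ}

lemma px_eq (hΦ : DifferentiableAt ℝ Φ z) (i : Fin 3) :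
    px i Φ z = fderiv ℝ Φ z (Pi.single i 1, 0) := by
  unfold px pd
  have h1 : HasFDerivAt (fun y : R3 => ((y, z.2) : R3 × ℝ))
      (ContinuousLinearMap.inl ℝ R3 ℝ) z.1 := by
    exact (hasFDerivAt_id (𝕜 := ℝ) z.1).prodMk (hasFDerivAt_const z.2 z.1)
  have h2 : HasFDerivAt (fun y : R3 => Φ (y, z.2))
      ((fderiv ℝ Φ z).comp (ContinuousLinearMap.inl ℝ R3 ℝ)) z.1 :=
    HasFDerivAt.comp z.1 (f := fun y : R3 => ((y, z.2) : R3 × ℝ)) (g := Φ)
      (by simpa using hΦ.hasFDerivAt) h1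
  rw [h2.fderiv]
  simp

lemma ptt_eq (hΦ : DifferentiableAt ℝ Φ z) : ptt Φ z = fderiv ℝ Φ z (0, 1) := by
  unfold ptt
  have h1 : HasDerivAt (fun s : ℝ => ((z.1, s) : R3 × ℝ)) ((0 : R3), (1 : ℝ)) z.2 :=
    (hasDerivAt_const z.2 z.1).prodMk (hasDerivAt_id z.2)
  have h2 : HasDerivAt (fun s : ℝ => Φ (z.1, s)) (fderiv ℝ Φ z ((0 : R3), (1 : ℝ))) z.2 :=
    HasFDerivAt.comp_hasDerivAt z.2 (f := fun s : ℝ => ((z.1, s) : R3 × ℝ)) (l := Φ)
      (by simpa using hΦ.hasFDerivAt) h1
  exact h2.deriv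

lemma continuous_px (hΦ : ContDiff ℝ 1 Φ) (i : Fin 3) : Continuous (px i Φ) := by
  have e : px i Φ = fun z => fderiv ℝ Φ z (Pi.single i 1, 0) := by
    funext z; exact px_eq (hΦ.differentiable (by norm_num) z) i
  rw [e]
  exact (hΦ.continuous_fderiv (by norm_num)).clm_apply continuous_const

lemma continuous_ptt (hΦ : ContDiff ℝ 1 Φ) : Continuous (ptt Φ) := by
  have e : ptt Φ = fun z => fderiv ℝ Φ z (0, 1) := by
    funext z; exact ptt_eq (hΦ.differentiable (by norm_num) z)
  rw [e]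
  exact (hΦ.continuous_fderiv (by norm_num)).clm_apply continuous_const

lemma px_zero (hz : z ∉ tsupport Φ) (i : Fin 3) : px i Φ z = 0 := by
  have e : Φ =ᶠ[𝓝 z] fun _ => 0 := by
    filter_upwards [(isClosed_tsupport Φ).isOpen_compl.mem_nhds hz] with y hy
    exact image_eq_zero_of_notMem_tsupport hy
  have hd : DifferentiableAt ℝ Φ z := (differentiableAt_const (0:ℝ)).congr_of_eventuallyEq e
  rw [px_eq hd, e.fderiv_eq]
  simp

lemma ptt_zero (hz : z ∉ tsupport Φ) : ptt Φ z = 0 := by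
  have e : Φ =ᶠ[𝓝 z] fun _ => 0 := by
    filter_upwards [(isClosed_tsupport Φ).isOpen_compl.mem_nhds hz] with y hy
    exact image_eq_zero_of_notMem_tsupport hy
  have hd : DifferentiableAt ℝ Φ z := (differentiableAt_const (0:ℝ)).congr_of_eventuallyEq e
  rw [ptt_eq hd, e.fderiv_eq]
  simp

lemma px_sq (hΦ : Differentiable ℝ Φ) (i : Fin 3) (z : R3 × ℝ) :
    px i (fun z => Φ z ^ 2) z = 2 * Φ z * px i Φ z := by
  rw [px_eq ((hΦ z).fun_pow 2), px_eq (hΦ z)]
  have : HasFDerivAt (fun z => Φ z ^ 2) ((2 * Φ z ^ 1) • fderiv ℝ Φ z) z := by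
    have := (hΦ z).hasFDerivAt.pow 2
    simpa using this
  rw [this.fderiv]
  simp

lemma ptt_sq (hΦ : Differentiable ℝ Φ) (z : R3 × ℝ) :
    ptt (fun z => Φ z ^ 2) z = 2 * Φ z * ptt Φ z := by
  rw [ptt_eq ((hΦ z).fun_pow 2), ptt_eq (hΦ z)]
  have : HasFDerivAt (fun z => Φ z ^ 2) ((2 * Φ z ^ 1) • fderiv ℝ Φ z) z := by
    have := (hΦ z).hasFDerivAt.pow 2
    simpa using this
  rw [this.fderiv]
  simp

end calc1

/-- A function which is continuous at the points of a compact set `K` and vanishes off `K` is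
integrable. -/
lemma integrable_of_loc {K : Set (R3 × ℝ)} (hK : IsCompact K) {G : R3 × ℝ → ℝ}
    (h1 : ∀ z ∈ K, ContinuousAt G z) (h2 : ∀ z, z ∉ K → G z = 0) : Integrable G := by
  have hc : Continuous G := by
    rw [continuous_iff_continuousAt]
    intro z
    by_cases hz : z ∈ K
    · exact h1 z hz
    · have e : G =ᶠ[𝓝 z] fun _ => 0 := by
        filter_upwards [hK.isClosed.isOpen_compl.mem_nhds hz] with y hy
        exact h2 y hy
      exact continuousAt_const.congr e.symm
  exact hc.integrable_of_hasCompactSupport (HasCompactSupport.intro hK h2)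

lemma dvg_mul {χ : R3 → ℝ} {X : R3 → R3} (hχ : ContDiff ℝ 1 χ) (hX : ContDiff ℝ 1 X) (y : R3) :
    dvg (fun x i => χ x * X x i) y = χ y * dvg X y + ∑ i, X y i * pd i χ y := by
  unfold dvg
  rw [Finset.mul_sum, ← Finset.sum_add_distrib]
  refine Finset.sum_congr rfl fun i _ => ?_
  have hXi : DifferentiableAt ℝ (fun y => X y i) y :=
    ((contDiff_pi.mp hX i).differentiable (by norm_num)) y
  rw [pd_mul ((hχ.differentiable (by norm_num)) y) hXi]

lemma cont_dvg {X : R3 → R3} (hX : ContDiff ℝ 1 X) : Continuous (dvg X) := by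
  unfold dvg
  exact continuous_finsetSum _ fun i _ => continuous_pd (contDiff_pi.mp hX i)

/-- Continuity at good points of the building blocks. -/
structure CB (u : R3 → ℝ) (z : R3 × ℝ) : Prop where
  ph : ContinuousAt (fun z : R3 × ℝ => phi u z.1) z
  r : ContinuousAt (fun z : R3 × ℝ => rr u z.1) z
  j : ContinuousAt (fun z : R3 × ℝ => jj u z.1 z.2) z
  c : ∀ i j, ContinuousAt (fun z : R3 × ℝ => cc u i j z.1 z.2) z
  xt : ContinuousAt (fun z : R3 × ℝ => LI.xt u z.1 z.2) z
  n : ContinuousAt (fun z : R3 × ℝ => nn u z.1) z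

lemma cb {u : R3 → ℝ} (hp : ∀ m : ℕ, ContDiff ℝ m (phi u)) {z : R3 × ℝ} (h : 0 < rr u z.1) :
    CB u z := by
  have hg : 0 < gs (phi u) z.1 := by
    have := wn_sq (phi u) z.1
    have h' : 0 < wn (phi u) z.1 := h
    nlinarith
  refine ⟨?_, ?_, ?_, ?_, ?_, ?_⟩
  · exact ((hp 0).continuous.comp continuous_fst).continuousAt
  · exact ContinuousAt.comp (g := rr u) (f := fun z : R3 × ℝ => z.1)
      (rr_cda hp hg 0).continuousAt continuous_fst.continuousAt
  · exact (jj_cda hp hg z.2 0).continuousAt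
  · intro i j
    exact (cc_cda hp hg z.2 i j 0).continuousAt
  · exact (xt_cda hp hg z.2 0).continuousAt
  · rw [continuousAt_pi]
    intro i
    exact ContinuousAt.comp (g := fun y => nn u y i) (f := fun z : R3 × ℝ => z.1)
      (nn_cda hp hg i 0).continuousAt continuous_fst.continuousAt

/-- `|X|² ≥ ...` algebra behind LI2. -/
lemma alg {χ J Φ Φt V D : ℝ} {n X c : R3} (hJ : 0 < J) (hχ : 0 ≤ χ)
    (hn : ∑ i, n i ^ 2 = 1) (hc : ∑ i, n i * c i = 0) (hD : D + dot X X ≤ V) :
    χ * (J * Φ ^ 2 * D + J * (2 * Φ * Φt) * dot X n + 2 * Φ * dot c X)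
      ≤ χ * (J * Φt ^ 2 + esq c / J + J * V * Φ ^ 2) := by
  refine mul_le_mul_of_nonneg_left ?_ hχ
  set a := dot X n with ha
  have hXX : dot X X = a ^ 2 + ∑ i, (X i - a * n i) ^ 2 := by
    have : ∑ i, (X i - a * n i) ^ 2 = dot X X - 2 * a * dot X n + a ^ 2 * ∑ i, n i ^ 2 := by
      unfold dot
      simp only [Fin.sum_univ_three]
      ring
    rw [this, hn, ← ha]; ring
  have hcX : dot c X = ∑ i, c i * (X i - a * n i) := by
    have : ∑ i, c i * (X i - a * n i) = dot c X - a * ∑ i, n i * c i := by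
      unfold dot
      simp only [Fin.sum_univ_three]
      ring
    rw [this, hc]; ring
  have h1 : 0 ≤ J * (Φ * a - Φt) ^ 2 := by positivity
  have h2 : 0 ≤ (∑ i, (c i - J * Φ * (X i - a * n i)) ^ 2) / J :=
    div_nonneg (Finset.sum_nonneg fun _ _ => sq_nonneg _) hJ.le
  have h3 : (∑ i, (c i - J * Φ * (X i - a * n i)) ^ 2) / J
      = esq c / J - 2 * Φ * ∑ i, c i * (X i - a * n i)
        + J * Φ ^ 2 * ∑ i, (X i - a * n i) ^ 2 := by
    unfold esq
    simp only [Fin.sum_univ_three]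
    field_simp
    ring
  have h4 : J * Φ ^ 2 * D ≤ J * Φ ^ 2 * (V - dot X X) := by
    refine mul_le_mul_of_nonneg_left (by linarith) (by positivity)
  rw [h3] at h2
  rw [hXX] at h4
  rw [hcX]
  nlinarith only [h1, h2, h4]

/-- `StLI1int` for continuous weights `w`. -/
def LI1c : Prop := ∀ (u : R3 → ℝ), Sol u → (∀ x, |u x| < 1) →
  ∀ X : R3 → R3, ContDiff ℝ 1 X → ∀ w : ℝ → ℝ, Continuous w →
  ∀ Ψ : R3 × ℝ → ℝ, ContDiff ℝ 1 Ψ → HasCompactSupport Ψ → (∀ z ∈ tsupport Ψ, 0 < rr u z.1) →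
  ∫ z : R3 × ℝ, w (phi u z.1) * rr u z.1 * (jj u z.1 z.2 * Ψ z * dvg X (xt u z.1 z.2)
      + jj u z.1 z.2 * ptt Ψ z * dot (X (xt u z.1 z.2)) (nn u z.1)
      + dot (cdx u Ψ z) (X (xt u z.1 z.2))) = 0

/-- `StLI2` for continuous weights `w`. -/
def LI2c : Prop := ∀ (u : R3 → ℝ), Sol u → (∀ x, |u x| < 1) →
  ∀ (X : R3 → R3) (R ε : ℝ), ContDiff ℝ 1 X →
  (∀ x ∈ box 3 R, dvg X x + dot (X x) (X x) ≤ VV u x + ε) →
  ∀ w : ℝ → ℝ, Continuous w → (∀ s, 0 ≤ w s) →
  ∀ χ : R3 → ℝ, ContDiff ℝ 1 χ → (∀ x, 0 ≤ χ x) →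
  ∀ Φ : R3 × ℝ → ℝ, ContDiff ℝ 1 Φ → HasCompactSupport Φ →
  (∀ z ∈ tsupport Φ, 0 < rr u z.1 ∧ 0 < jj u z.1 z.2 ∧ xt u z.1 z.2 ∈ box 3 R) →
  - ∫ z : R3 × ℝ, w (phi u z.1) * rr u z.1 * (jj u z.1 z.2 * Φ z ^ 2 *
        ∑ i, X (xt u z.1 z.2) i * pd i χ (xt u z.1 z.2))
    ≤ ∫ z : R3 × ℝ, w (phi u z.1) * rr u z.1 * (χ (xt u z.1 z.2) * (jj u z.1 z.2 * ptt Φ z ^ 2
        + esq (cdx u Φ z) / jj u z.1 z.2
        + jj u z.1 z.2 * (VV u (xt u z.1 z.2) + ε) * Φ z ^ 2))

/-- The integrand of `LI1c` is integrable. -/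
lemma integrable_LI1 {u : R3 → ℝ} (hp : ∀ m : ℕ, ContDiff ℝ m (phi u)) {X : R3 → R3}
    (hX : ContDiff ℝ 1 X) {w : ℝ → ℝ} (hcw : Continuous w) {Ψ : R3 × ℝ → ℝ}
    (hΨ : ContDiff ℝ 1 Ψ) (hc : HasCompactSupport Ψ) (hs : ∀ z ∈ tsupport Ψ, 0 < rr u z.1) :
    Integrable (fun z : R3 × ℝ => w (phi u z.1) * rr u z.1 *
      (jj u z.1 z.2 * Ψ z * dvg X (xt u z.1 z.2)
      + jj u z.1 z.2 * ptt Ψ z * dot (X (xt u z.1 z.2)) (nn u z.1)
      + dot (cdx u Ψ z) (X (xt u z.1 z.2)))) := by
  have hcX : ∀ i, Continuous fun x => X x i := fun i => (contDiff_pi.mp hX i).continuous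
  refine integrable_of_loc (K := tsupport Ψ) hc (fun z hz => ?_) (fun z hz => ?_)
  · have hb := cb hp (hs z hz)
    have hx : ∀ g : R3 → ℝ, Continuous g →
        ContinuousAt (fun z : R3 × ℝ => g (xt u z.1 z.2)) z :=
      fun g hg => ContinuousAt.comp (g := g) hg.continuousAt hb.xt
    refine (((hcw.continuousAt).comp hb.ph).mul hb.r).mul ((ContinuousAt.add ?_ ?_).add ?_)
    · exact (hb.j.mul hΨ.continuous.continuousAt).mul (hx _ (cont_dvg hX))
    · refine (hb.j.mul (continuous_ptt hΨ).continuousAt).mul ?_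
      unfold dot
      refine tendsto_finset_sum _ fun i _ => ?_
      exact (hx (fun x => X x i) (hcX i)).mul ((continuousAt_pi.mp hb.n) i)
    · unfold dot
      refine tendsto_finset_sum _ fun i _ => ?_
      refine ContinuousAt.mul ?_ (hx (fun x => X x i) (hcX i))
      unfold cdx
      refine tendsto_finset_sum _ fun k _ => ?_
      exact (hb.c i k).mul (continuous_px hΨ k).continuousAt
  · have h0 := image_eq_zero_of_notMem_tsupport hz
    have e3 : cdx u Ψ z = 0 := by
      funext i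
      unfold cdx
      simp [px_zero hz]
    simp only [h0, ptt_zero hz, e3]
    simp [dot]

theorem LI1c_of (h : StLI1int) : LI1c := by
  intro u hu hl X hX w hw Ψ hΨ hc hs
  have hp := phi_contDiff hu hl
  have hcX : ∀ i, Continuous fun x => X x i := fun i => (contDiff_pi.mp hX i).continuous
  set F0 : R3 × ℝ → ℝ := fun z => rr u z.1 * (jj u z.1 z.2 * Ψ z * dvg X (xt u z.1 z.2)
      + jj u z.1 z.2 * ptt Ψ z * dot (X (xt u z.1 z.2)) (nn u z.1)
      + dot (cdx u Ψ z) (X (xt u z.1 z.2))) with hF0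
  have hI : Integrable F0 := by
    have := integrable_LI1 (w := fun _ => (1:ℝ)) hp hX continuous_const hΨ hc hs
    refine this.congr (Eventually.of_forall fun z => ?_)
    simp only [hF0]; ring
  have hz0 : ∀ z, z ∉ tsupport Ψ → F0 z = 0 := by
    intro z hz
    have h0 := image_eq_zero_of_notMem_tsupport hz
    have e3 : cdx u Ψ z = 0 := by
      funext i
      unfold cdx
      simp [px_zero hz]
    simp only [hF0, h0, ptt_zero hz, e3]
    simp [dot]
  have hC1 : ∀ v : ℝ → ℝ, ContDiff ℝ 1 v → ∫ z, v (phi u z.1) * F0 z = 0 := by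
    intro v hv
    have := h u hu hl X hX v hv Ψ hΨ hc hs
    rw [← this]
    refine integral_congr_ae (Eventually.of_forall fun z => ?_)
    simp only [hF0]; ring
  have goal : ∫ z, w (phi u z.1) * F0 z = 0 := by
    have hbd : ∃ M : ℝ, ∀ z ∈ tsupport Ψ, |phi u z.1| ≤ M := by
      have hcont : Continuous fun z : R3 × ℝ => phi u z.1 := (hp 0).continuous.comp continuous_fst
      obtain ⟨M, hM⟩ := hc.isCompact.exists_bound_of_continuousOn hcont.continuousOn
      exact ⟨M, fun z hz => by simpa using hM z hz⟩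
    obtain ⟨M, hM⟩ := hbd
    have hint : 0 ≤ ∫ z, |F0 z| := integral_nonneg fun z => abs_nonneg _
    refine abs_eq_zero.mp (le_antisymm (le_of_forall_pos_le_add fun δ hδ => ?_) (abs_nonneg _))
    have hδ' : 0 < δ / (1 + ∫ z, |F0 z|) := by positivity
    obtain ⟨p, hpw⟩ := exists_polynomial_near_of_continuousOn (-M) M w hw.continuousOn _ hδ'
    have hpoly : ∫ z, p.eval (phi u z.1) * F0 z = 0 :=
      hC1 (fun s => p.eval s) (by
        have := Polynomial.contDiff_aeval (𝕜 := ℝ) p 1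
        simpa using this)
    have hle : ∀ z, |w (phi u z.1) * F0 z - p.eval (phi u z.1) * F0 z|
        ≤ δ / (1 + ∫ z, |F0 z|) * |F0 z| := by
      intro z
      by_cases hz : z ∈ tsupport Ψ
      · have h2 := hpw (phi u z.1) (abs_le.mp (hM z hz))
        rw [← sub_mul, abs_mul]
        refine mul_le_mul_of_nonneg_right ?_ (abs_nonneg _)
        rw [abs_sub_comm]
        exact h2.le
      · rw [hz0 z hz]; simp
    have hb2 : ∃ M2 : ℝ, ∀ v : ℝ → ℝ, Continuous v → ∃ M2 : ℝ, ∀ z ∈ tsupport Ψ,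
        |v (phi u z.1)| ≤ M2 := by
      refine ⟨0, fun v hv => ?_⟩
      have hcont : Continuous fun z : R3 × ℝ => v (phi u z.1) :=
        hv.comp ((hp 0).continuous.comp continuous_fst)
      obtain ⟨M, hM⟩ := hc.isCompact.exists_bound_of_continuousOn hcont.continuousOn
      exact ⟨M, fun z hz => by simpa using hM z hz⟩
    have hi : ∀ v : ℝ → ℝ, Continuous v → Integrable (fun z : R3 × ℝ => v (phi u z.1) * F0 z) := by
      intro v hv
      have := integrable_LI1 hp hX hv hΨ hc hs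
      refine this.congr (Eventually.of_forall fun z => ?_)
      simp only [hF0]; ring
    have h5 : ∫ z, w (phi u z.1) * F0 z
        = ∫ z, (w (phi u z.1) * F0 z - p.eval (phi u z.1) * F0 z) := by
      rw [integral_sub (hi w hw) (hi (fun s => p.eval s) p.continuous), hpoly, sub_zero]
    rw [h5, zero_add]
    calc |∫ z, (w (phi u z.1) * F0 z - p.eval (phi u z.1) * F0 z)|
        ≤ ∫ z, |w (phi u z.1) * F0 z - p.eval (phi u z.1) * F0 z| := abs_integral_le_integral_abs
      _ ≤ ∫ z, δ / (1 + ∫ z, |F0 z|) * |F0 z| := by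
          refine integral_mono ?_ (hI.abs.const_mul _) hle
          exact ((hi w hw).sub (hi (fun s => p.eval s) p.continuous)).abs
      _ = δ / (1 + ∫ z, |F0 z|) * ∫ z, |F0 z| := by rw [integral_const_mul]
      _ ≤ δ := by
          rw [div_mul_eq_mul_div, div_le_iff₀ (by positivity)]
          nlinarith
  rw [← goal]
  refine integral_congr_ae (Eventually.of_forall fun z => ?_)
  simp only [hF0]; ring

theorem LI2c_of (h1 : LI1c) : LI2c := by
  intro u hu hl X R ε hX hR w hw hw0 χ hχ hχ0 Φ hΦ hc hs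
  have hp := phi_contDiff hu hl
  have hΦd : Differentiable ℝ Φ := hΦ.differentiable (by norm_num)
  have hY : ContDiff ℝ 1 (fun (x : R3) (i : Fin 3) => χ x * X x i) :=
    contDiff_pi.mpr fun i => hχ.mul (contDiff_pi.mp hX i)
  have hcs : HasCompactSupport (fun z => Φ z ^ 2) := by
    have : (fun z => Φ z ^ 2) = fun z => Φ z * Φ z := by funext z; ring
    rw [this]; exact hc.mul_right
  have hts : tsupport (fun z => Φ z ^ 2) ⊆ tsupport Φ := by
    refine closure_mono ?_
    intro z hz hz0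
    exact hz (by simp only [hz0]; norm_num)
  have hpos : ∀ z ∈ tsupport Φ, CB u z := fun z hz => cb hp (hs z hz).1
  have hK : IsCompact (tsupport Φ) := hc
  have hcw : Continuous w := hw
  have key := h1 u hu hl _ hY w hw (fun z => Φ z ^ 2) (hΦ.pow 2) hcs
    (fun z hz => (hs z (hts hz)).1)
  -- the three integrands
  set G1 : R3 × ℝ → ℝ := fun z => w (phi u z.1) * rr u z.1 * (jj u z.1 z.2 * Φ z ^ 2 *
        ∑ i, X (xt u z.1 z.2) i * pd i χ (xt u z.1 z.2)) with hG1
  set G2 : R3 × ℝ → ℝ := fun z => w (phi u z.1) * rr u z.1 *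
        (χ (xt u z.1 z.2) * (jj u z.1 z.2 * ptt Φ z ^ 2
        + esq (cdx u Φ z) / jj u z.1 z.2
        + jj u z.1 z.2 * (VV u (xt u z.1 z.2) + ε) * Φ z ^ 2)) with hG2
  have hcX : ∀ i, Continuous fun x => X x i := fun i => (contDiff_pi.mp hX i).continuous
  have hcV : Continuous (VV u) := by
    unfold VV; exact (continuous_const.mul (hu.c2.continuous.pow 2)).sub continuous_const
  have i1 : Integrable G1 := by
    refine integrable_of_loc hK (fun z hz => ?_) (fun z hz => ?_)
    · have hb := hpos z hz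
      have hx : ∀ g : R3 → ℝ, Continuous g → ContinuousAt (fun z : R3 × ℝ => g (xt u z.1 z.2)) z :=
        fun g hg => ContinuousAt.comp (g := g) hg.continuousAt hb.xt
      refine (((hcw.continuousAt).comp hb.ph).mul hb.r).mul ((hb.j.mul
        (hΦ.continuous.continuousAt.pow 2)).mul ?_)
      refine tendsto_finset_sum _ fun i _ => ?_
      exact (hx _ (hcX i)).mul (hx _ (continuous_pd hχ))
    · simp only [hG1, image_eq_zero_of_notMem_tsupport hz]; ring
  have i2 : Integrable G2 := by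
    refine integrable_of_loc hK (fun z hz => ?_) (fun z hz => ?_)
    · have hb := hpos z hz
      have hx : ∀ g : R3 → ℝ, Continuous g → ContinuousAt (fun z : R3 × ℝ => g (xt u z.1 z.2)) z :=
        fun g hg => ContinuousAt.comp (g := g) hg.continuousAt hb.xt
      have hj0 : jj u z.1 z.2 ≠ 0 := (hs z hz).2.1.ne'
      refine (((hcw.continuousAt).comp hb.ph).mul hb.r).mul ((hx _ hχ.continuous).mul ?_)
      refine ((hb.j.mul ((continuous_ptt hΦ).continuousAt.pow 2)).add ?_).add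
        ((hb.j.mul ((hx _ hcV).add continuousAt_const)).mul (hΦ.continuous.continuousAt.pow 2))
      refine ContinuousAt.div ?_ hb.j hj0
      unfold esq
      refine tendsto_finset_sum _ fun i _ => ?_
      refine ContinuousAt.pow ?_ 2
      unfold cdx
      refine tendsto_finset_sum _ fun k _ => ?_
      exact (hb.c i k).mul (continuous_px hΦ k).continuousAt
    · have e1 : esq (cdx u Φ z) = 0 := by
        unfold esq cdx
        simp [px_zero hz]
      simp only [hG2, image_eq_zero_of_notMem_tsupport hz, ptt_zero hz, e1]; ring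
  -- pointwise inequality
  have hle : ∀ z : R3 × ℝ, w (phi u z.1) * rr u z.1 * (jj u z.1 z.2 * Φ z ^ 2 *
        dvg (fun (x : R3) (i : Fin 3) => χ x * X x i) (xt u z.1 z.2)
      + jj u z.1 z.2 * ptt (fun z => Φ z ^ 2) z *
        dot ((fun (x : R3) (i : Fin 3) => χ x * X x i) (xt u z.1 z.2)) (nn u z.1)
      + dot (cdx u (fun z => Φ z ^ 2) z)
        ((fun (x : R3) (i : Fin 3) => χ x * X x i) (xt u z.1 z.2))) ≤ G1 z + G2 z := by
    intro z
    by_cases hz : z ∈ tsupport Φ
    · obtain ⟨hr, hj, hb⟩ := hs z hz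
      have hg : 0 < gs (phi u) z.1 := by
        have := wn_sq (phi u) z.1
        have h' : 0 < wn (phi u) z.1 := hr
        nlinarith
      have hcd : ∑ i, nn u z.1 i * cdx u Φ z i = 0 := by
        have : ∑ i, nn u z.1 i * cdx u Φ z i
            = ∑ j, (∑ i, nn u z.1 i * cc u i j z.1 z.2) * px j Φ z := by
          unfold cdx
          simp only [Fin.sum_univ_three]
          ring
        rw [this]
        simp [nn_cc hp hg]
      have ha := alg (χ := χ (xt u z.1 z.2)) (Φ := Φ z) (Φt := ptt Φ z)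
        (V := VV u (xt u z.1 z.2) + ε) (D := dvg X (xt u z.1 z.2)) (n := nn u z.1)
        (X := X (xt u z.1 z.2)) (c := cdx u Φ z) hj (hχ0 _) (nn_unit hg) hcd (hR _ hb)
      have e1 : dot ((fun (x : R3) (i : Fin 3) => χ x * X x i) (xt u z.1 z.2)) (nn u z.1)
          = χ (xt u z.1 z.2) * dot (X (xt u z.1 z.2)) (nn u z.1) := by
        unfold dot; rw [Finset.mul_sum]; exact Finset.sum_congr rfl fun i _ => by ring
      have e2 : dot (cdx u (fun z => Φ z ^ 2) z)
          ((fun (x : R3) (i : Fin 3) => χ x * X x i) (xt u z.1 z.2))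
          = χ (xt u z.1 z.2) * (2 * Φ z * dot (cdx u Φ z) (X (xt u z.1 z.2))) := by
        unfold dot cdx
        simp only [px_sq hΦd, Fin.sum_univ_three]
        ring
      rw [dvg_mul hχ hX, ptt_sq hΦd, e1, e2]
      have hwr : 0 ≤ w (phi u z.1) * rr u z.1 := mul_nonneg (hw0 _) hr.le
      have := mul_le_mul_of_nonneg_left ha hwr
      simp only [hG1, hG2]
      nlinarith only [this]
    · have h0 := image_eq_zero_of_notMem_tsupport hz
      have e1 : esq (cdx u Φ z) = 0 := by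
        unfold esq cdx
        simp [px_zero hz]
      have e3 : cdx u (fun z => Φ z ^ 2) z = 0 := by
        funext i
        unfold cdx
        simp [px_sq hΦd, h0]
      simp only [hG1, hG2, h0, ptt_zero hz, e1, ptt_sq hΦd, e3]
      simp [dot]
  have hfin : (0:ℝ) ≤ ∫ z, (G1 z + G2 z) := by
    rw [← key]
    by_cases hi : Integrable (fun z : R3 × ℝ => w (phi u z.1) * rr u z.1 * (jj u z.1 z.2 * Φ z ^ 2 *
        dvg (fun (x : R3) (i : Fin 3) => χ x * X x i) (xt u z.1 z.2)
      + jj u z.1 z.2 * ptt (fun z => Φ z ^ 2) z *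
        dot ((fun (x : R3) (i : Fin 3) => χ x * X x i) (xt u z.1 z.2)) (nn u z.1)
      + dot (cdx u (fun z => Φ z ^ 2) z)
        ((fun (x : R3) (i : Fin 3) => χ x * X x i) (xt u z.1 z.2))))
    · exact integral_mono hi (i1.add i2) hle
    · exfalso
      apply hi
      refine integrable_of_loc hK (fun z hz => ?_) (fun z hz => ?_)
      · have hb := hpos z hz
        have hx : ∀ g : R3 → ℝ, Continuous g →
            ContinuousAt (fun z : R3 × ℝ => g (xt u z.1 z.2)) z :=
          fun g hg => ContinuousAt.comp (g := g) hg.continuousAt hb.xt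
        refine (((hcw.continuousAt).comp hb.ph).mul hb.r).mul ((ContinuousAt.add ?_ ?_).add ?_)
        · exact (hb.j.mul (hΦ.continuous.continuousAt.pow 2)).mul (hx _ (cont_dvg hY))
        · refine (hb.j.mul (continuous_ptt (hΦ.pow 2)).continuousAt).mul ?_
          unfold dot
          refine tendsto_finset_sum _ fun i _ => ?_
          exact (hx (fun x => χ x * X x i) (hχ.continuous.mul (hcX i))).mul
            ((continuousAt_pi.mp hb.n) i)
        · unfold dot
          refine tendsto_finset_sum _ fun i _ => ?_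
          refine ContinuousAt.mul ?_ (hx (fun x => χ x * X x i) (hχ.continuous.mul (hcX i)))
          unfold cdx
          refine tendsto_finset_sum _ fun k _ => ?_
          exact (hb.c i k).mul (continuous_px (hΦ.pow 2) k).continuousAt
      · have h0 := image_eq_zero_of_notMem_tsupport hz
        have e3 : cdx u (fun z => Φ z ^ 2) z = 0 := by
          funext i
          unfold cdx
          simp [px_sq hΦd, h0]
        simp only [h0, ptt_sq hΦd, e3]
        simp [dot]
  rw [integral_add i1 i2] at hfin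
  linarith

theorem LI2 (h1 : StLI1int) : StLI2 := by
  intro u hu hl X R ε hX hR w hw hw0 χ hχ hχ0 Φ hΦ hc hs
  exact LI2c_of (LI1c_of h1) u hu hl X R ε hX hR w hw.continuous hw0 χ hχ hχ0 Φ hΦ hc hs

end Vale.Agent.P134.H88
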