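import Vale.Agent.P134.LI.Blocks

/-! P134, package R3: exact statement of the combination S-C at fixed radius. -/

set_option linter.all false

namespace Vale.Agent.P134.LI

open Vale.Agent.P134 Vale.Agent.P134.SM MeasureTheory Filter Topology

/-- S-C: combination of LI1int (for `X = ∇χ`), LI2, LI3, LI3f at fixed `R`; `cw ≥ 0` arbitrary
(later `cw = ∫ w`). -/
def StSC : Prop := ∀ (u : R3 → ℝ), Sol u → (∀ x, |u x| < 1) →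
  ∀ (X : R3 → R3) (R e : ℝ), ContDiff ℝ 1 X →
  (∀ x ∈ box 3 R, dvg X x + dot (X x) (X x) ≤ VV u x + e) →
  ∀ w : ℝ → ℝ, Continuous w → (∀ s, 0 ≤ w s) → ∀ cw : ℝ, 0 ≤ cw →
  ∀ χ : R3 → ℝ, ContDiff ℝ 2 χ → (∀ x, 0 ≤ χ x ∧ χ x ≤ 1) →
  ∀ G : R3 → ℝ, ContDiff ℝ 2 G → HasCompactSupport G → (∀ x ∈ tsupport G, x ∈ box 3 R) →
  ∀ Φ : R3 × ℝ → ℝ, ContDiff ℝ 1 Φ → HasCompactSupport Φ →
  (∀ z ∈ tsupport Φ, 0 < rr u z.1 ∧ 0 < jj u z.1 z.2 ∧ xt u z.1 z.2 ∈ box 3 R) →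
  cw * (∫ x, G x ^ 2 * ff u x ^ 2 * ∑ i, X x i * pd i χ x)
    - (∫ z : R3 × ℝ, w (phi u z.1) * rr u z.1 * (jj u z.1 z.2 * Φ z ^ 2 *
        ∑ i, X (xt u z.1 z.2) i * pd i χ (xt u z.1 z.2)))
    + Real.sqrt 2 * cw * (∫ x, (1 - χ x) * (G x ^ 2 * ff u x ^ 3 * qq u x))
    + (1 / 2) * (cw * (∫ x, G x ^ 2 * ff u x ^ 2 * lap χ x)
        - ∫ z : R3 × ℝ, w (phi u z.1) * rr u z.1 *
            (jj u z.1 z.2 * Φ z ^ 2 * lap χ (xt u z.1 z.2)))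
  ≤ cw * (∫ x, ((1 - χ x) * (ff u x ^ 2 * gs G x + e * (G x * ff u x) ^ 2)
        - ff u x ^ 2 * (G x * gg G χ x)))
    + (∫ z : R3 × ℝ, w (phi u z.1) * rr u z.1 *
        (χ (xt u z.1 z.2) * (jj u z.1 z.2 *
            (ptt Φ z ^ 2 + (VV u (xt u z.1 z.2) + e) * Φ z ^ 2))
          + jj u z.1 z.2 * (Φ z * ptt Φ z) * ∑ i, nn u z.1 i * pd i χ (xt u z.1 z.2)))
    + ∫ z : R3 × ℝ, w (phi u z.1) * rr u z.1 *
        (χ (xt u z.1 z.2) * (esq (cdx u Φ z) / jj u z.1 z.2)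
          + Φ z * ∑ i, cdx u Φ z i * pd i χ (xt u z.1 z.2))

end Vale.Agent.P134.LI
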