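import Vale.Agent.P134.H88.Tube
import Vale.Agent.P134.H88.SCDef

/-! P134, package R3: the combination S-C at fixed radius. -/

set_option linter.all false

namespace Vale.Agent.P134.H88

open Vale.Agent.P134 Vale.Agent.P134.SM Vale.Agent.P134.LI MeasureTheory Filter Topology

variable {u : R3 → ℝ}

lemma ff_contDiff (hu : Sol u) (m : ℕ) : ContDiff ℝ m (ff u) := by
  unfold ff
  exact (contDiff_const.sub ((Sol.contDiff_nat hu m).pow 2)).div_const _

lemma qq_continuous (hp : ∀ m : ℕ, ContDiff ℝ m (phi u)) : Continuous (qq u) := by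
  unfold qq
  exact continuous_const.sub
    (gs_contDiff (m := 0) (by exact_mod_cast hp 1)).continuous

lemma VV_continuous (hu : Sol u) : Continuous (VV u) := by
  unfold VV; exact (continuous_const.mul (hu.c2.continuous.pow 2)).sub continuous_const

lemma continuous_gs {g : R3 → ℝ} (hg : ContDiff ℝ 1 g) : Continuous (gs g) := by
  unfold gs
  exact continuous_finsetSum _ fun i _ => (continuous_pd hg).pow 2

lemma continuous_gg {g h : R3 → ℝ} (hg : ContDiff ℝ 1 g) (hh : ContDiff ℝ 1 h) :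
    Continuous (gg g h) := by
  unfold gg
  exact continuous_finsetSum _ fun i _ => (continuous_pd hg).mul (continuous_pd hh)

lemma continuous_lap {g : R3 → ℝ} (hg : ContDiff ℝ 2 g) : Continuous (lap g) := by
  unfold lap
  exact continuous_finsetSum _ fun i _ => continuous_pd (contDiff_pd_one hg)

lemma gs_zero {G : R3 → ℝ} {x : R3} (hx : x ∉ tsupport G) : gs G x = 0 := by
  unfold gs
  simp [pd_eq_zero_of_notMem_tsupport hx]

lemma lap_one_sub {χ : R3 → ℝ} (hχ : ContDiff ℝ 2 χ) (x : R3) :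
    lap (fun y => 1 - χ y) x = - lap χ x := by
  rw [lap_sub contDiff_const hχ, lap_const, zero_sub]

lemma pd_one_sub {χ : R3 → ℝ} (hχ : ContDiff ℝ 2 χ) (i : Fin 3) (x : R3) :
    pd i (fun y => 1 - χ y) x = - pd i χ x := by
  rw [pd_sub (differentiableAt_const _) (hχ.differentiable (by norm_num) x), pd_const, zero_sub]

/-- LI3, the identity for `a = G f`. -/
def LI3fc : Prop := ∀ (u : R3 → ℝ), Sol u → (∀ x, |u x| < 1) →
  ∀ G : R3 → ℝ, ContDiff ℝ 2 G → HasCompactSupport G → ∀ β : R3 → ℝ, ContDiff ℝ 2 β →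
  (∫ x, β x * (gs (fun y => G y * ff u y) x + VV u x * (G x * ff u x) ^ 2))
    = (∫ x, β x * (ff u x ^ 2 * gs G x - Real.sqrt 2 * G x ^ 2 * ff u x ^ 3 * qq u x))
      + (1 / 2) * (∫ x, ff u x ^ 2 * (G x ^ 2 * lap β x + 2 * G x * gg G β x))

theorem SC (h1 : StLI1int) (h3 : StLI3) (h3f : LI3fc) : StSC := by
  intro u hu hl X R e hX hR w hw hw0 cw hcw χ hχ hχ01 G hG hGc hGs Φ hΦ hc hs
  have hp := phi_contDiff hu hl
  have hΦd : Differentiable ℝ Φ := hΦ.differentiable (by norm_num)
  have hχ1 : ContDiff ℝ 1 χ := hχ.of_le (by norm_num)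
  have hG1 : ContDiff ℝ 1 G := hG.of_le (by norm_num)
  have hf2 : ContDiff ℝ 2 (ff u) := by exact_mod_cast ff_contDiff hu 2
  have hfc : Continuous (ff u) := hf2.continuous
  have hqc := qq_continuous hp
  have hVc := VV_continuous hu
  have hcX : ∀ i, Continuous fun x => X x i := fun i => (contDiff_pi.mp hX i).continuous
  have hK : IsCompact (tsupport Φ) := hc
  -- continuity on the tube
  have hb : ∀ z ∈ tsupport Φ, CB u z := fun z hz => cb hp (hs z hz).1
  have hx : ∀ z ∈ tsupport Φ, ∀ g : R3 → ℝ, Continuous g →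
      ContinuousAt (fun z : R3 × ℝ => g (xt u z.1 z.2)) z :=
    fun z hz g hg => ContinuousAt.comp (g := g) hg.continuousAt (hb z hz).xt
  have hwr : ∀ z ∈ tsupport Φ, ContinuousAt (fun z : R3 × ℝ => w (phi u z.1) * rr u z.1) z :=
    fun z hz => ((hw.continuousAt).comp (hb z hz).ph).mul (hb z hz).r
  have hcdx : ∀ z ∈ tsupport Φ, ∀ i, ContinuousAt (fun z => cdx u Φ z i) z := by
    intro z hz i
    unfold cdx
    exact tendsto_finset_sum _ fun k _ => ((hb z hz).c i k).mul (continuous_px hΦ k).continuousAt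
  have hcdx0 : ∀ z, z ∉ tsupport Φ → cdx u Φ z = 0 := by
    intro z hz
    funext i
    unfold cdx
    simp [px_zero hz]
  have hesq : ∀ z ∈ tsupport Φ, ContinuousAt (fun z => esq (cdx u Φ z)) z := by
    intro z hz
    unfold esq
    exact tendsto_finset_sum _ fun i _ => (hcdx z hz i).pow 2
  have hnX : ∀ z ∈ tsupport Φ, ContinuousAt (fun z : R3 × ℝ =>
      ∑ i, nn u z.1 i * pd i χ (xt u z.1 z.2)) z := by
    intro z hz
    exact tendsto_finset_sum _ fun i _ => ((continuousAt_pi.mp (hb z hz).n) i).mul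
      (hx z hz _ (continuous_pd hχ1))
  -- the pieces
  set F1 : R3 × ℝ → ℝ := fun z => w (phi u z.1) * rr u z.1 *
      (χ (xt u z.1 z.2) * (jj u z.1 z.2 *
            (ptt Φ z ^ 2 + (VV u (xt u z.1 z.2) + e) * Φ z ^ 2))) with hF1
  set F2 : R3 × ℝ → ℝ := fun z => w (phi u z.1) * rr u z.1 *
      (jj u z.1 z.2 * (Φ z * ptt Φ z) * ∑ i, nn u z.1 i * pd i χ (xt u z.1 z.2)) with hF2
  set F3 : R3 × ℝ → ℝ := fun z => w (phi u z.1) * rr u z.1 *
      (χ (xt u z.1 z.2) * (esq (cdx u Φ z) / jj u z.1 z.2)) with hF3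
  set F4 : R3 × ℝ → ℝ := fun z => w (phi u z.1) * rr u z.1 *
      (Φ z * ∑ i, cdx u Φ z i * pd i χ (xt u z.1 z.2)) with hF4
  set F5 : R3 × ℝ → ℝ := fun z => w (phi u z.1) * rr u z.1 *
            (jj u z.1 z.2 * Φ z ^ 2 * lap χ (xt u z.1 z.2)) with hF5
  have I1 : Integrable F1 := by
    refine integrable_of_loc hK (fun z hz => ?_) (fun z hz => ?_)
    · exact (hwr z hz).mul ((hx z hz _ hχ1.continuous).mul ((hb z hz).j.mul
        (((continuous_ptt hΦ).continuousAt.pow 2).add
          (((hx z hz _ hVc).add continuousAt_const).mul (hΦ.continuous.continuousAt.pow 2)))))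
    · simp only [hF1, image_eq_zero_of_notMem_tsupport hz, ptt_zero hz]; ring
  have I2 : Integrable F2 := by
    refine integrable_of_loc hK (fun z hz => ?_) (fun z hz => ?_)
    · exact (hwr z hz).mul (((hb z hz).j.mul (hΦ.continuous.continuousAt.mul
        (continuous_ptt hΦ).continuousAt)).mul (hnX z hz))
    · simp only [hF2, image_eq_zero_of_notMem_tsupport hz]; ring
  have I3 : Integrable F3 := by
    refine integrable_of_loc hK (fun z hz => ?_) (fun z hz => ?_)
    · exact (hwr z hz).mul ((hx z hz _ hχ1.continuous).mul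
        ((hesq z hz).div (hb z hz).j (hs z hz).2.1.ne'))
    · have e0 : esq (cdx u Φ z) = 0 := by rw [hcdx0 z hz]; simp [esq]
      simp only [hF3, e0]; ring
  have I4 : Integrable F4 := by
    refine integrable_of_loc hK (fun z hz => ?_) (fun z hz => ?_)
    · refine (hwr z hz).mul (hΦ.continuous.continuousAt.mul ?_)
      exact tendsto_finset_sum _ fun i _ => (hcdx z hz i).mul (hx z hz _ (continuous_pd hχ1))
    · simp only [hF4, image_eq_zero_of_notMem_tsupport hz]; ring
  have I5 : Integrable F5 := by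
    refine integrable_of_loc hK (fun z hz => ?_) (fun z hz => ?_)
    · exact (hwr z hz).mul (((hb z hz).j.mul (hΦ.continuous.continuousAt.pow 2)).mul
        (hx z hz _ (continuous_lap hχ)))
    · simp only [hF5, image_eq_zero_of_notMem_tsupport hz]; ring
  -- LI4
  have hcs : HasCompactSupport (fun z => Φ z ^ 2) := by
    have : (fun z => Φ z ^ 2) = fun z => Φ z * Φ z := by funext z; ring
    rw [this]; exact hc.mul_right
  have hts : tsupport (fun z => Φ z ^ 2) ⊆ tsupport Φ := by
    refine closure_mono ?_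
    intro z hz hz0
    exact hz (by simp only [hz0]; norm_num)
  have hDχ : ContDiff ℝ 1 (fun (x : R3) (i : Fin 3) => pd i χ x) :=
    contDiff_pi.mpr fun i => contDiff_pd_one hχ
  have L4 := LI1c_of h1 u hu hl _ hDχ w hw (fun z => Φ z ^ 2) (hΦ.pow 2) hcs
    (fun z hz => (hs z (hts hz)).1)
  have L4' : (∫ z, F5 z) + 2 * (∫ z, F2 z) + 2 * (∫ z, F4 z) = 0 := by
    have K1 : Integrable (fun a => F5 a + 2 * F2 a) := I5.add (I2.const_mul 2)
    rw [← integral_const_mul, ← integral_const_mul, ← integral_add I5 (I2.const_mul 2),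
      ← integral_add K1 (I4.const_mul 2), ← L4]
    refine integral_congr_ae (Eventually.of_forall fun z => ?_)
    have e1 : dvg (fun (x : R3) (i : Fin 3) => pd i χ x) (xt u z.1 z.2)
        = lap χ (xt u z.1 z.2) := rfl
    have e2 : dot ((fun (x : R3) (i : Fin 3) => pd i χ x) (xt u z.1 z.2)) (nn u z.1)
        = ∑ i, nn u z.1 i * pd i χ (xt u z.1 z.2) := by
      unfold dot; exact Finset.sum_congr rfl fun i _ => by ring
    have e3 : dot (cdx u (fun z => Φ z ^ 2) z)
        ((fun (x : R3) (i : Fin 3) => pd i χ x) (xt u z.1 z.2))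
        = 2 * (Φ z * ∑ i, cdx u Φ z i * pd i χ (xt u z.1 z.2)) := by
      unfold dot cdx
      simp only [px_sq hΦd, Fin.sum_univ_three]
      ring
    simp only [hF5, hF2, hF4]
    rw [e1, e2, e3, ptt_sq hΦd]
    ring
  -- LI2
  have L2 := LI2c_of (LI1c_of h1) u hu hl X R e hX hR w hw hw0 χ hχ1 (fun x => (hχ01 x).1) Φ hΦ
    hc hs
  have L2' : ∫ z : R3 × ℝ, w (phi u z.1) * rr u z.1 * (χ (xt u z.1 z.2) *
        (jj u z.1 z.2 * ptt Φ z ^ 2 + esq (cdx u Φ z) / jj u z.1 z.2
        + jj u z.1 z.2 * (VV u (xt u z.1 z.2) + e) * Φ z ^ 2))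
      = (∫ z, F1 z) + ∫ z, F3 z := by
    rw [← integral_add I1 I3]
    refine integral_congr_ae (Eventually.of_forall fun z => ?_)
    simp only [hF1, hF3]; ring
  -- the ball part
  have hβ : ContDiff ℝ 2 (fun x => 1 - χ x) := contDiff_const.sub hχ
  have ha : ContDiff ℝ 1 (fun x => G x * ff u x) := hG1.mul (hf2.of_le (by norm_num))
  have hac : HasCompactSupport (fun x => G x * ff u x) := hGc.mul_right
  have has : tsupport (fun x => G x * ff u x) ⊆ tsupport G := by
    refine closure_mono ?_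
    intro z hz hz0
    exact hz (by simp only [hz0]; ring)
  have L3 := h3 (VV u) hVc X R e hX hR (fun x => 1 - χ x) (hβ.of_le (by norm_num))
    (fun x => by linarith [(hχ01 x).2]) _ ha hac (fun x hx' => hGs x (has hx'))
  have L3f := h3f u hu hl G hG hGc (fun x => 1 - χ x) hβ
  -- integrability on `R3`
  have J : ∀ g : R3 → ℝ, Continuous g → (∀ x, x ∉ tsupport G → g x = 0) → Integrable g :=
    fun g hg h0 => hg.integrable_of_hasCompactSupport (HasCompactSupport.intro hGc h0)
  have hG0 : ∀ x, x ∉ tsupport G → G x = 0 := fun x hx' => image_eq_zero_of_notMem_tsupport hx'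
  have hχc := hχ1.continuous
  have hGcc := hG1.continuous
  have J1 : Integrable (fun x => (1 - χ x) * (ff u x ^ 2 * gs G x)) :=
    J _ ((continuous_const.sub hχc).mul ((hfc.pow 2).mul (continuous_gs hG1)))
      (fun x hx' => by simp only [gs_zero hx']; ring)
  have J2 : Integrable (fun x => (1 - χ x) * (G x ^ 2 * ff u x ^ 3 * qq u x)) :=
    J _ ((continuous_const.sub hχc).mul (((hGcc.pow 2).mul (hfc.pow 3)).mul hqc))
      (fun x hx' => by simp only [hG0 x hx']; ring)
  have J3 : Integrable (fun x => G x ^ 2 * ff u x ^ 2 * lap χ x) :=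
    J _ (((hGcc.pow 2).mul (hfc.pow 2)).mul (continuous_lap hχ))
      (fun x hx' => by simp only [hG0 x hx']; ring)
  have J4 : Integrable (fun x => ff u x ^ 2 * (G x * gg G χ x)) :=
    J _ ((hfc.pow 2).mul (hGcc.mul (continuous_gg hG1 hχ1)))
      (fun x hx' => by simp only [hG0 x hx']; ring)
  have J5 : Integrable (fun x => (1 - χ x) * (e * (G x * ff u x) ^ 2)) :=
    J _ ((continuous_const.sub hχc).mul (continuous_const.mul ((hGcc.mul hfc).pow 2)))
      (fun x hx' => by simp only [hG0 x hx']; ring)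
  have J6 : Integrable (fun x => (1 - χ x) * (gs (fun y => G y * ff u y) x
      + VV u x * (G x * ff u x) ^ 2)) := by
    refine J _ ((continuous_const.sub hχc).mul ((continuous_gs ha).add
      (hVc.mul ((hGcc.mul hfc).pow 2)))) (fun x hx' => ?_)
    have : gs (fun y => G y * ff u y) x = 0 := gs_zero (fun h => hx' (has h))
    simp only [hG0 x hx', this]; ring
  have A1 : - ∫ x, (G x * ff u x) ^ 2 * ∑ i, X x i * pd i (fun x => 1 - χ x) x
      = ∫ x, G x ^ 2 * ff u x ^ 2 * ∑ i, X x i * pd i χ x := by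
    rw [← integral_neg]
    refine integral_congr_ae (Eventually.of_forall fun x => ?_)
    simp only [pd_one_sub hχ, Fin.sum_univ_three]
    ring
  have A2 : ∫ x, (1 - χ x) * (gs (fun y => G y * ff u y) x + (VV u x + e) * (G x * ff u x) ^ 2)
      = (∫ x, (1 - χ x) * (gs (fun y => G y * ff u y) x + VV u x * (G x * ff u x) ^ 2))
        + ∫ x, (1 - χ x) * (e * (G x * ff u x) ^ 2) := by
    rw [← integral_add J6 J5]
    refine integral_congr_ae (Eventually.of_forall fun x => ?_)
    ring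
  have A3 : ∫ x, (1 - χ x) * (ff u x ^ 2 * gs G x - Real.sqrt 2 * G x ^ 2 * ff u x ^ 3 * qq u x)
      = (∫ x, (1 - χ x) * (ff u x ^ 2 * gs G x))
        - Real.sqrt 2 * ∫ x, (1 - χ x) * (G x ^ 2 * ff u x ^ 3 * qq u x) := by
    rw [← integral_const_mul, ← integral_sub J1 (J2.const_mul _)]
    refine integral_congr_ae (Eventually.of_forall fun x => ?_)
    ring
  have A4 : ∫ x, ff u x ^ 2 * (G x ^ 2 * lap (fun x => 1 - χ x) x
        + 2 * G x * gg G (fun x => 1 - χ x) x)
      = - (∫ x, G x ^ 2 * ff u x ^ 2 * lap χ x) - 2 * ∫ x, ff u x ^ 2 * (G x * gg G χ x) := by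
    have J3n : Integrable (fun x => -(G x ^ 2 * ff u x ^ 2 * lap χ x)) := J3.neg
    rw [← integral_const_mul, ← integral_neg, ← integral_sub J3n (J4.const_mul 2)]
    refine integral_congr_ae (Eventually.of_forall fun x => ?_)
    have : gg G (fun x => 1 - χ x) x = - gg G χ x := by
      unfold gg
      simp only [pd_one_sub hχ, Fin.sum_univ_three]
      ring
    simp only [lap_one_sub hχ, this]
    ring
  have A5 : ∫ x, ((1 - χ x) * (ff u x ^ 2 * gs G x + e * (G x * ff u x) ^ 2)
        - ff u x ^ 2 * (G x * gg G χ x))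
      = (∫ x, (1 - χ x) * (ff u x ^ 2 * gs G x)) + (∫ x, (1 - χ x) * (e * (G x * ff u x) ^ 2))
        - ∫ x, ff u x ^ 2 * (G x * gg G χ x) := by
    have J15 : Integrable (fun x => (1 - χ x) * (ff u x ^ 2 * gs G x)
        + (1 - χ x) * (e * (G x * ff u x) ^ 2)) := J1.add J5
    rw [← integral_add J1 J5, ← integral_sub J15 J4]
    refine integral_congr_ae (Eventually.of_forall fun x => ?_)
    ring
  have B1 : ∫ z : R3 × ℝ, w (phi u z.1) * rr u z.1 *
        (χ (xt u z.1 z.2) * (jj u z.1 z.2 *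
            (ptt Φ z ^ 2 + (VV u (xt u z.1 z.2) + e) * Φ z ^ 2))
          + jj u z.1 z.2 * (Φ z * ptt Φ z) * ∑ i, nn u z.1 i * pd i χ (xt u z.1 z.2))
      = (∫ z, F1 z) + ∫ z, F2 z := by
    rw [← integral_add I1 I2]
    refine integral_congr_ae (Eventually.of_forall fun z => ?_)
    simp only [hF1, hF2]; ring
  have B2 : ∫ z : R3 × ℝ, w (phi u z.1) * rr u z.1 *
        (χ (xt u z.1 z.2) * (esq (cdx u Φ z) / jj u z.1 z.2)
          + Φ z * ∑ i, cdx u Φ z i * pd i χ (xt u z.1 z.2))
      = (∫ z, F3 z) + ∫ z, F4 z := by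
    rw [← integral_add I3 I4]
    refine integral_congr_ae (Eventually.of_forall fun z => ?_)
    simp only [hF3, hF4]; ring
  rw [B1, B2, A5]
  rw [L2'] at L2
  rw [A1, A2] at L3
  rw [A3, A4] at L3f
  have hmul := mul_le_mul_of_nonneg_left L3 hcw
  rw [L3f] at hmul
  nlinarith only [hmul, L2, L4']

end Vale.Agent.P134.H88
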