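import Vale.Agent.P134.LI.SDdef
import Vale.Agent.P134.H88.Tube
import Vale.Agent.P134.H88.SC
import Vale.Agent.P134.H147.Base

/-! P134, package R3: `StSD1 → StSD2` (the limit `R → ∞`). -/

set_option linter.all false

namespace Vale.Agent.P134.H88

open Vale.Agent.P134 Vale.Agent.P134.SM Vale.Agent.P134.LI MeasureTheory Filter Topology

lemma meas_pd (f : R3 → ℝ) (i : Fin 3) : Measurable (pd i f) :=
  measurable_fderiv_apply_const ℝ f (Pi.single i 1)

lemma meas_gs (f : R3 → ℝ) : Measurable (gs f) := by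
  unfold gs
  exact Finset.measurable_fun_sum _ fun i _ => (meas_pd f i).pow_const 2

lemma meas_wn (f : R3 → ℝ) : Measurable (wn f) := by
  unfold wn
  exact (meas_gs f).sqrt

lemma meas_nu (f : R3 → ℝ) (i : Fin 3) : Measurable (nu f i) := by
  unfold nu
  exact (meas_pd f i).div (meas_wn f)

lemma meas_hh (u : R3 → ℝ) : Measurable (hh u) := by
  unfold hh mc
  exact Finset.measurable_fun_sum _ fun i _ => meas_pd _ i

lemma meas_aa (u : R3 → ℝ) (i j : Fin 3) : Measurable (aa u i j) := by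
  unfold aa
  exact (meas_pd _ j).sub ((Finset.measurable_fun_sum _ fun k _ =>
    (meas_pd _ k).mul (meas_nu _ k)).mul (meas_nu _ j))

lemma meas_a2 (u : R3 → ℝ) : Measurable (a2 u) := by
  unfold a2
  exact Finset.measurable_fun_sum _ fun i _ => Finset.measurable_fun_sum _ fun j _ =>
    (meas_aa u i j).pow_const 2

lemma meas_kk (u : R3 → ℝ) : Measurable (kk u) := by
  unfold kk
  exact (((meas_hh u).pow_const 2).sub (meas_a2 u)).div_const 2

lemma meas_rr (u : R3 → ℝ) : Measurable (rr u) := meas_wn _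

lemma meas_qq (u : R3 → ℝ) : Measurable (qq u) := measurable_const.sub (meas_gs _)

/-- all terms with bounded coefficient and weight `Gw²` are integrable, and cut-offs converge. -/
lemma lim_of_cut {lam : ℝ} (hGi : Integrable fun x => Gw lam x ^ 2) {h : R3 → ℝ} {M : ℝ}
    (hm : Measurable h) (hM : ∀ x, |h x| ≤ M * Gw lam x ^ 2) {b : ℕ → R3 → ℝ}
    (hbm : ∀ n, Continuous (b n)) (hb01 : ∀ n x, 0 ≤ b n x ∧ b n x ≤ 1)
    (hb1 : ∀ (n : ℕ) (x : R3), eno x ≤ (n : ℝ) + 1 → b n x = 1) :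
    Tendsto (fun n => ∫ x, h x * b n x ^ 2) atTop (𝓝 (∫ x, h x)) := by
  refine tendsto_integral_of_dominated_convergence (fun x => M * Gw lam x ^ 2) ?_
    (hGi.const_mul M) ?_ ?_
  · intro n
    exact (hm.mul ((hbm n).measurable.pow_const 2)).aestronglyMeasurable
  · intro n
    refine Eventually.of_forall fun x => ?_
    rw [Real.norm_eq_abs, abs_mul]
    have h1 : |b n x ^ 2| ≤ 1 := by
      rw [abs_of_nonneg (sq_nonneg _)]
      have := hb01 n x
      nlinarith
    calc |h x| * |b n x ^ 2| ≤ |h x| * 1 := mul_le_mul_of_nonneg_left h1 (abs_nonneg _)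
      _ ≤ _ := by rw [mul_one]; exact hM x
  · refine Eventually.of_forall fun x => ?_
    refine tendsto_const_nhds.congr' ?_
    obtain ⟨N, hN⟩ := exists_nat_ge (eno x)
    filter_upwards [eventually_ge_atTop N] with n hn
    have h2 : eno x ≤ n + 1 := by
      have : (N : ℝ) ≤ n := by exact_mod_cast hn
      linarith
    rw [hb1 n x h2]; ring

theorem sd2_of (hGw : StGw) (hCR : StCutR) (hH : StHar1) (h1 : StSD1) : StSD2 := by
  intro CX s3 μ C1 hCX hs3 hμ hμ1 hC1
  obtain ⟨CR, hCR0, hCR⟩ := hCR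
  obtain ⟨CH, hCH0, hCH⟩ := hH s3 hs3
  obtain ⟨δ0, c2, C, ε0, hδ0, hc2, hC, hε0, H⟩ := h1 CX s3 μ (max C1 CR) hCX hs3 hμ hμ1
    (lt_max_of_lt_left hC1)
  refine ⟨δ0, c2, C, ε0, hδ0, hc2, hC, hε0, fun ε he he' => ?_⟩
  obtain ⟨δ1, W0, hδ1, hδ10, hW0, H⟩ := H ε he he'
  refine ⟨min δ1 (1 / 2), W0, lt_min hδ1 (by norm_num), (min_le_left _ _).trans hδ10, hW0,
    fun W hW => ?_⟩
  obtain ⟨κ0, hκ0, H⟩ := H W hW
  refine ⟨κ0, hκ0, fun κ hκ hκ' => ?_⟩
  obtain ⟨lam0, hlam0, H⟩ := H κ hκ hκ'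
  refine ⟨min lam0 1, lt_min hlam0 one_pos, fun lam u B η w χ om hlam D => ?_⟩
  have hWpos : 0 < W := by linarith
  have D' : SDat CX s3 δ1 W lam (max C1 CR) u B η w χ om :=
    { hs := D.hs, hyp := D.hyp, latt := D.latt
      good := fun x h1 h2 => (D.good x h1 h2).trans (min_le_left _ _)
      lam0 := D.lam0, eta1 := D.eta1, etab := D.etab, etaM := D.etaM, etaG := D.etaG, wc := D.wc
      wb := D.wb, ws := D.ws, chi2 := D.chi2, chib := D.chib, chi0 := D.chi0, chi1 := D.chi1
      chid := fun x i => (D.chid x i).trans (by gcongr; exact le_max_left _ _)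
      chidd := fun x i j => (D.chidd x i j).trans (by gcongr; exact le_max_left _ _)
      om2 := D.om2, omb := D.omb, om0 := D.om0, om1 := D.om1
      omd := fun x i => (D.omd x i).trans (by gcongr; exact le_max_left _ _) }
  obtain ⟨Cu, H⟩ := H lam u B η w χ om (hlam.trans (min_le_left _ _)) D'
  have hu : Sol u := D.hs.toSol
  have hl := D.hs.lt
  obtain ⟨-, hG1, -, -, hGi, -⟩ := hGw lam D.lam0 (hlam.trans (min_le_right _ _))
  -- cut-offs
  choose b hb2 hb01 hb1 hb0 hbd hbdd using fun n : ℕ => hCR ((n : ℝ) + 1) (by positivity)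
  have hR1 : ∀ n : ℕ, (1 : ℝ) ≤ (n : ℝ) + 1 := fun n => by
    have : (0 : ℝ) ≤ n := Nat.cast_nonneg n
    linarith
  have HI : ∀ n : ℕ, _ := fun n => H ((n : ℝ) + 1) (b n) (hR1 n) (hb2 n) (hb01 n) (hb1 n) (hb0 n)
    (fun x i => (hbd n x i).trans (by gcongr; exact le_max_right _ _))
    (fun x i j => (hbdd n x i j).trans (by gcongr; exact le_max_right _ _))
  have hp := phi_contDiff hu hl
  have hGm : Measurable (Gw lam) := by
    have : Continuous (Gw lam) := ((hGw lam D.lam0 (hlam.trans (min_le_right _ _))).1 0).continuous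
    exact this.measurable
  have hff : ∀ x, 0 ≤ ff u x ∧ ff u x ≤ 1 := by
    intro x
    have h2 := abs_lt.mp (hl x)
    have h3 : 1 ≤ Real.sqrt 2 := H147.r2_one_le
    have h4 : 0 < Real.sqrt 2 := by positivity
    have h5 : 0 ≤ 1 - u x ^ 2 := by nlinarith
    unfold ff
    refine ⟨by positivity, ?_⟩
    rw [div_le_one h4]
    nlinarith [sq_nonneg (u x)]
  have hq0 := H147.qq_nonneg hu hl
  have hq1 := H147.qq_le_one u
  have hr0 := H147.rr_nonneg u
  have hr1 := H147.rr_le_one hu hl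
  -- first integral
  have T1 : Tendsto (fun n => ∫ x, (1 - χ x) * (Gw lam x ^ 2 * ff u x ^ 3 * qq u x) * b n x ^ 2)
      atTop (𝓝 (∫ x, (1 - χ x) * (Gw lam x ^ 2 * ff u x ^ 3 * qq u x))) := by
    refine lim_of_cut (M := 1) hGi ?_ ?_ (fun n => (hb2 n).continuous) hb01 hb1
    · exact (measurable_const.sub D.chi2.continuous.measurable).mul
        (((hGm.pow_const 2).mul ((ff_contDiff hu 0).continuous.measurable.pow_const 3)).mul
          (meas_qq u))
    · intro x
      have h2 := D.chib x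
      have h3 : 0 ≤ ff u x ^ 3 * qq u x ∧ ff u x ^ 3 * qq u x ≤ 1 := by
        refine ⟨mul_nonneg (pow_nonneg (hff x).1 3) (hq0 x), ?_⟩
        exact mul_le_one₀ (pow_le_one₀ (hff x).1 (hff x).2) (hq0 x) (hq1 x)
      have h4 : 0 ≤ (1 - χ x) * (ff u x ^ 3 * qq u x) := mul_nonneg (by linarith) h3.1
      have h5 : (1 - χ x) * (ff u x ^ 3 * qq u x) ≤ 1 :=
        mul_le_one₀ (by linarith) h3.1 h3.2
      have h6 : (1 - χ x) * (Gw lam x ^ 2 * ff u x ^ 3 * qq u x)
          = (1 - χ x) * (ff u x ^ 3 * qq u x) * Gw lam x ^ 2 := by ring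
      rw [h6, abs_of_nonneg (mul_nonneg h4 (sq_nonneg _))]
      exact mul_le_mul_of_nonneg_right h5 (sq_nonneg _)
  -- second integral
  have hc2' : 0 ≤ c2 := hc2.le
  have hsig : 0 < sig0 := by unfold sig0; positivity
  have T2 : Tendsto (fun n => ∫ x, w (phi u x) * rr u x * (η x * om x) ^ 2 *
        (χ x * (c2 * qq u x - sig0 * kk u x)) * b n x ^ 2)
      atTop (𝓝 (∫ x, w (phi u x) * rr u x * (η x * om x) ^ 2 *
        (χ x * (c2 * qq u x - sig0 * kk u x)))) := by
    refine lim_of_cut (M := c2 + sig0 * (CH ^ 2 + CH)) hGi ?_ ?_ (fun n => (hb2 n).continuous)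
      hb01 hb1
    · exact (((D.wc.measurable.comp (hp 0).continuous.measurable).mul (meas_rr u)).mul
        ((D.eta1.continuous.measurable.mul D.om2.continuous.measurable).pow_const 2)).mul
        (D.chi2.continuous.measurable.mul (((meas_qq u).const_mul c2).sub
          ((meas_kk u).const_mul sig0)))
    · intro x
      have hM0 : 0 ≤ c2 + sig0 * (CH ^ 2 + CH) := by positivity
      by_cases hφ : s3 ≤ |phi u x|
      · rw [D.ws _ hφ]; simp; positivity
      push Not at hφ
      by_cases hfar : Far B (W / 4) x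
      swap
      · rw [D.om0 x hfar]; simp; positivity
      have hq : qq u x ≤ 1 / 2 := (D.good x (by linarith) hfar).trans (min_le_right _ _)
      obtain ⟨hh1, hh2⟩ := hCH u hu hl x hφ.le hq
      have ha0 : 0 ≤ a2 u x := by
        unfold a2; exact Finset.sum_nonneg fun i _ => Finset.sum_nonneg fun j _ => sq_nonneg _
      have hkk : |kk u x| ≤ CH ^ 2 + CH := by
        have e1 : hh u x ^ 2 ≤ CH ^ 2 := by
          have e2 : |hh u x| ≤ CH := by nlinarith [hq1 x, hq0 x]
          calc hh u x ^ 2 = |hh u x| ^ 2 := (sq_abs _).symm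
            _ ≤ CH ^ 2 := by gcongr
        have e3 : a2 u x ≤ CH := by nlinarith [hq1 x, hq0 x]
        unfold kk
        rw [abs_le]
        constructor
        · nlinarith [sq_nonneg (hh u x), sq_nonneg CH]
        · nlinarith [sq_nonneg (hh u x), sq_nonneg CH]
      have h2 := D.chib x
      have h3 : |χ x * (c2 * qq u x - sig0 * kk u x)| ≤ c2 + sig0 * (CH ^ 2 + CH) := by
        rw [abs_mul]
        have e1 : |χ x| ≤ 1 := by rw [abs_of_nonneg h2.1]; exact h2.2
        have e2 : |c2 * qq u x - sig0 * kk u x| ≤ c2 + sig0 * (CH ^ 2 + CH) := by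
          calc |c2 * qq u x - sig0 * kk u x| ≤ |c2 * qq u x| + |sig0 * kk u x| := abs_sub _ _
            _ = c2 * qq u x + sig0 * |kk u x| := by
              rw [abs_mul, abs_mul, abs_of_pos hc2, abs_of_pos hsig, abs_of_nonneg (hq0 x)]
            _ ≤ c2 * 1 + sig0 * (CH ^ 2 + CH) := by gcongr; exact hq1 x
            _ = _ := by ring
        calc |χ x| * |c2 * qq u x - sig0 * kk u x| ≤ 1 * (c2 + sig0 * (CH ^ 2 + CH)) :=
              mul_le_mul e1 e2 (abs_nonneg _) one_pos.le
          _ = _ := one_mul _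
      have h4 : |w (phi u x) * rr u x * (η x * om x) ^ 2| ≤ Gw lam x ^ 2 := by
        have w0 := D.wb (phi u x)
        have e0 := D.etab x
        have o0 := D.omb x
        have g1 : 0 ≤ w (phi u x) * rr u x := mul_nonneg w0.1 (hr0 x)
        have g2 : w (phi u x) * rr u x ≤ 1 := mul_le_one₀ w0.2 (hr0 x) (hr1 x)
        have g3 : 0 ≤ η x * om x := mul_nonneg e0.1 o0.1
        have g4 : η x * om x ≤ Gw lam x := by
          calc η x * om x ≤ Gw lam x * 1 := mul_le_mul e0.2 o0.2 o0.1 (hG1 x).1.le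
            _ = _ := mul_one _
        rw [abs_of_nonneg (mul_nonneg g1 (sq_nonneg _))]
        calc w (phi u x) * rr u x * (η x * om x) ^ 2 ≤ 1 * (Gw lam x) ^ 2 :=
              mul_le_mul g2 (pow_le_pow_left₀ g3 g4 2) (sq_nonneg _) one_pos.le
          _ = _ := one_mul _
      rw [abs_mul]
      calc |w (phi u x) * rr u x * (η x * om x) ^ 2| * |χ x * (c2 * qq u x - sig0 * kk u x)|
          ≤ Gw lam x ^ 2 * (c2 + sig0 * (CH ^ 2 + CH)) :=
            mul_le_mul h4 h3 (abs_nonneg _) (sq_nonneg _)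
        _ = _ := by ring
  -- conclusion
  have TC : Tendsto (fun n : ℕ => RHSD μ C ε κ W lam u B η w om + Cu / ((n : ℝ) + 1)) atTop
      (𝓝 (RHSD μ C ε κ W lam u B η w om)) := by
    have h2 : Tendsto (fun n : ℕ => Cu / ((n : ℝ) + 1)) atTop (𝓝 0) := by
      have := tendsto_one_div_add_atTop_nhds_zero_nat (𝕜 := ℝ)
      simpa [div_eq_mul_inv] using this.const_mul Cu
    simpa using h2.const_add (RHSD μ C ε κ W lam u B η w om)
  refine le_of_tendsto_of_tendsto' ((T1.const_mul (Real.sqrt 2 * ∫ s, w s)).add T2) TC fun n => ?_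
  have e1 : ∫ x, (1 - χ x) * (Gw lam x ^ 2 * ff u x ^ 3 * qq u x) * b n x ^ 2
      = ∫ x, (1 - χ x) * ((Gw lam x * b n x) ^ 2 * ff u x ^ 3 * qq u x) := by
    refine integral_congr_ae (Eventually.of_forall fun x => ?_)
    ring
  have e2 : ∫ x, w (phi u x) * rr u x * (η x * om x) ^ 2 *
        (χ x * (c2 * qq u x - sig0 * kk u x)) * b n x ^ 2
      = ∫ x, w (phi u x) * rr u x * (η x * om x * b n x) ^ 2 *
        (χ x * (c2 * qq u x - sig0 * kk u x)) := by
    refine integral_congr_ae (Eventually.of_forall fun x => ?_)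
    ring
  rw [e1, e2]
  exact HI n

end Vale.Agent.P134.H88
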