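import Vale.Agent.P134.LI.Fct
import Vale.Agent.P134.H88.SCf
import Vale.Agent.P134.H88.T3

/-! P134, package R3: assembly of `StSD1`. -/

set_option linter.all false

namespace Vale.Agent.P134.H88

open Vale.Agent.P134 Vale.Agent.P134.SM Vale.Agent.P134.LI MeasureTheory Filter Topology

lemma dot_le_eno (a b : R3) : |∑ i, a i * b i| ≤ eno a * eno b := by
  have h : (∑ i, a i * b i) ^ 2 ≤ (∑ i, a i ^ 2) * ∑ i, b i ^ 2 :=
    Finset.sum_mul_sq_le_sq_mul_sq _ _ _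
  have h2 : (∑ i, a i * b i) ^ 2 ≤ (eno a * eno b) ^ 2 := by
    rw [mul_pow, eno_sq, eno_sq]; exact h
  exact abs_le_of_sq_le_sq h2 (mul_nonneg (eno_nonneg _) (eno_nonneg _))

lemma eno_grad_le {f : R3 → ℝ} {L : ℝ} {x : R3} (hL : 0 ≤ L) (h : ∀ i, |pd i f x| ≤ L) :
    eno (fun i => pd i f x) ≤ 2 * L := by
  unfold eno esq
  rw [Real.sqrt_le_left (by linarith)]
  have h1 : ∀ i, pd i f x ^ 2 ≤ L ^ 2 := fun i => by
    rw [← sq_abs]; exact pow_le_pow_left₀ (abs_nonneg _) (h i) 2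
  rw [Fin.sum_univ_three]
  nlinarith [h1 0, h1 1, h1 2]

lemma lap_le {f : R3 → ℝ} {L : ℝ} {x : R3} (h : ∀ i j, |pd i (pd j f) x| ≤ L) :
    |lap f x| ≤ 3 * L := by
  unfold lap
  rw [Fin.sum_univ_three]
  have h0 := abs_le.mp (h 0 0)
  have h1 := abs_le.mp (h 1 1)
  have h2 := abs_le.mp (h 2 2)
  rw [abs_le]
  constructor <;> linarith [h0.1, h0.2, h1.1, h1.2, h2.1, h2.2]

theorem ptf_of (hPW : StPW) (hCDX : StCDX) {s3 μ C1 : ℝ} (hs : 0 < s3) (hμ : 0 < μ) (hμ1 : μ < 1)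
    (hC1 : 0 < C1) : ∃ c2 Cp ε0 : ℝ, 0 < c2 ∧ 0 < Cp ∧ 0 < ε0 ∧ ε0 ≤ 1 / 2 ∧
    ∀ ε : ℝ, 0 < ε → ε ≤ ε0 → ∃ δ0 : ℝ, 0 < δ0 ∧
    ∀ (κ W : ℝ), 0 < κ → κ ≤ ε0 → 1 ≤ W → C1 ≤ W → ∀ (u : R3 → ℝ) (B : Set R3) (χ : R3 → ℝ),
      Sol u → (∀ x, |u x| < 1) → (∀ x, |phi u x| ≤ s3 + 1 → Far B (W / 4) x → qq u x ≤ δ0) →
      ContDiff ℝ 1 χ → (∀ y, 0 ≤ χ y ∧ χ y ≤ 1) → (∀ y i, |pd i χ y| ≤ C1 / W) →
      PtF s3 (μ / 8) c2 Cp ε κ W u B χ := by
  obtain ⟨c2, Ca, εa, hc2, hCa, hεa, HA⟩ := hPW (s3 + 1) (by linarith)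
  obtain ⟨Cb, εb, hCb, hεb, HB⟩ := hCDX (s3 + 1) (μ / 8) (by linarith) (by linarith)
  refine ⟨c2, Ca * (C1 + 1) + Cb, min (min εa εb) (1 / 2), hc2, by positivity,
    lt_min (lt_min hεa hεb) (by norm_num), min_le_right _ _, fun ε he he' => ?_⟩
  have hea : ε ≤ εa := he'.trans ((min_le_left _ _).trans (min_le_left _ _))
  have heb : ε ≤ εb := he'.trans ((min_le_left _ _).trans (min_le_right _ _))
  obtain ⟨δa, hδa, HA⟩ := HA ε he hea
  obtain ⟨δb, hδb, HB⟩ := HB ε he heb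
  refine ⟨min δa δb, lt_min hδa hδb, fun κ W hκ hκ' hW hCW u B χ hu hl hgood hχ hχ01 hχd => ?_⟩
  have hka : κ ≤ εa := hκ'.trans ((min_le_left _ _).trans (min_le_left _ _))
  have hkb : κ ≤ εb := hκ'.trans ((min_le_left _ _).trans (min_le_right _ _))
  have hk2 : κ ≤ 1 / 2 := hκ'.trans (min_le_right _ _)
  have hW0 : 0 < W := by linarith
  have hΛ0 : 0 ≤ C1 / W := by positivity
  have hΛ1 : C1 / W ≤ 1 := by rw [div_le_one hW0]; exact hCW
  obtain ⟨HB1, HB2, HB3⟩ := HB κ hκ hkb u hu hl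
  have hq0 := H147.qq_nonneg hu hl
  exact
  { mu0 := by linarith
    mu1 := by linarith
    c20 := hc2
    C0 := by positivity
    ep0 := he
    ep1 := he'.trans (min_le_right _ _)
    ka0 := hκ
    ka1 := by linarith
    geo := fun x h1 h2 => HB1 x h1 ((hgood x h1 h2).trans (min_le_right _ _))
    pw := fun x h1 h2 => by
      refine (HA κ (C1 / W) hκ hka hΛ0 hΛ1 u hu hl χ hχ hχ01 hχd x h1
        ((hgood x h1 h2).trans (min_le_left _ _))).trans ?_
      have k1 : 0 ≤ qq u x + κ ^ 2 := by have := hq0 x; positivity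
      have k2 : Ca * (C1 / W + ε) ≤ (Ca * (C1 + 1) + Cb) * (1 / W + ε) := by
        have e1 : Ca * (C1 / W + ε) = Ca * C1 * (1 / W) + Ca * ε := by ring
        have e2 : (Ca * (C1 + 1) + Cb) * (1 / W + ε)
            = Ca * C1 * (1 / W) + Ca * ε + (Ca * (1 / W) + Ca * C1 * ε + Cb * (1 / W + ε)) := by
          ring
        rw [e1, e2]
        have : 0 ≤ Ca * (1 / W) + Ca * C1 * ε + Cb * (1 / W + ε) := by positivity
        linarith
      have k3 := mul_le_mul_of_nonneg_right k2 k1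
      linarith
    cdx2 := fun E hE x h1 h2 => by
      refine (HB2 E hE χ hχ.continuous hχ01 x h1 ((hgood x h1 h2).trans (min_le_right _ _))).trans ?_
      have k1 : 0 ≤ qq u x + κ ^ 2 := by have := hq0 x; positivity
      have k2 : Cb * ε * (qq u x + κ ^ 2) * E x ^ 2
          ≤ (Ca * (C1 + 1) + Cb) * ε * (qq u x + κ ^ 2) * E x ^ 2 := by
        gcongr
        have : 0 ≤ Ca * (C1 + 1) := by positivity
        linarith
      linarith
    cdx3 := fun E hE x h1 h2 t => by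
      refine (HB3 E hE x h1 ((hgood x h1 h2).trans (min_le_right _ _)) t).trans ?_
      have k1 : 0 ≤ qq u x + κ ^ 2 := by have := hq0 x; positivity
      have k3 : 0 ≤ Ca * (C1 + 1) := by positivity
      have k4 : Cb * |E x| * Real.sqrt (gs E x) * prf ε κ u x t ^ 2
          ≤ (Ca * (C1 + 1) + Cb) * |E x| * Real.sqrt (gs E x) * prf ε κ u x t ^ 2 := by
        gcongr
        linarith
      refine add_le_add k4 ?_
      split_ifs
      · gcongr
        linarith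
      · exact le_rfl }

/-- the final real inequality. -/
lemma sd1_alg {σS J Bm T ε W lam R Cp K1 K3 K4 CX C1 A1 A2 A3 A4 ex P Q M1 M2 L2 L3 L4 N : ℝ}
    (hW : 1 ≤ W) (hε : 0 < ε) (hlam : 0 < lam) (hR : 0 < R) (hCp : 0 < Cp) (hK1 : 0 < K1)
    (hK3 : 0 < K3) (hK4 : 0 < K4) (hCX : 0 < CX) (hC1 : 0 < C1) (hex : 0 < ex) (hT : 0 ≤ T)
    (hJ : 0 ≤ J) (hB : 0 ≤ Bm) (hN : N = 2 * CX * C1 + 3 * C1)
    (h0 : M1 + P + (1 / 2) * M2 ≤ L4 + L2 + L3)
    (h1a : -(2 * CX * C1 / W * (Bm + K1 * ex * T + A1 / R)) ≤ M1)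
    (h1b : -(3 * C1 / W * (Bm + K1 * ex * T + A1 / R)) ≤ M2)
    (h2 : L2 + Q ≤ Cp * (1 / W + ε) * J + A2 / R)
    (h3 : L3 ≤ σS + K3 * (1 / W + ε) * J + (K3 * lam * W ^ 4 + K3 * ex) * T + A3 / R)
    (h4 : L4 ≤ K4 * lam * W ^ 4 * T + A4 / R) :
    P + Q ≤ (σS + (Cp + K3 + N * (1 + K1) + K4) * (1 / W + ε) * J
        + (Cp + K3 + N * (1 + K1) + K4) / W * Bm
        + ((Cp + K3 + N * (1 + K1) + K4) * lam * W ^ 4
          + (Cp + K3 + N * (1 + K1) + K4) * W ^ 4 * ex) * T)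
        + (N * |A1| + A2 + A3 + A4) / R := by
  have hW0 : 0 < W := by linarith
  have hN0 : 0 < N := by rw [hN]; positivity
  have hb1 : A1 / R ≤ |A1| / R := div_le_div_of_nonneg_right (le_abs_self _) hR.le
  have hWinv : 0 < 1 / W := by positivity
  have hWinv1 : 1 / W ≤ 1 := by rw [div_le_one hW0]; exact hW
  have hW4 : 1 ≤ W ^ 4 := one_le_pow₀ hW
  have hAR : 0 ≤ |A1| / R := by positivity
  have m1 : 2 * CX * C1 / W * (Bm + K1 * ex * T + A1 / R)
      + (1 / 2) * (3 * C1 / W * (Bm + K1 * ex * T + A1 / R))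
      ≤ N / W * Bm + N * K1 * (W ^ 4 * ex) * T + N * |A1| / R := by
    have q0 : 2 * CX * C1 / W + (1 / 2) * (3 * C1 / W) ≤ N * (1 / W) := by
      have : 2 * CX * C1 / W + (1 / 2) * (3 * C1 / W) = (2 * CX * C1 + 3 * C1 / 2) * (1 / W) := by
        ring
      rw [this]
      refine mul_le_mul_of_nonneg_right ?_ hWinv.le
      rw [hN]; linarith
    have q1 : Bm + K1 * ex * T + A1 / R ≤ Bm + K1 * ex * T + |A1| / R := by linarith
    have q2 : 0 ≤ Bm + K1 * ex * T + |A1| / R := by positivity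
    have q3 : 0 ≤ 2 * CX * C1 / W + (1 / 2) * (3 * C1 / W) := by positivity
    calc 2 * CX * C1 / W * (Bm + K1 * ex * T + A1 / R)
        + (1 / 2) * (3 * C1 / W * (Bm + K1 * ex * T + A1 / R))
        = (2 * CX * C1 / W + (1 / 2) * (3 * C1 / W)) * (Bm + K1 * ex * T + A1 / R) := by
          ring
      _ ≤ (2 * CX * C1 / W + (1 / 2) * (3 * C1 / W)) * (Bm + K1 * ex * T + |A1| / R) :=
          mul_le_mul_of_nonneg_left q1 q3
      _ ≤ N * (1 / W) * (Bm + K1 * ex * T + |A1| / R) :=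
          mul_le_mul_of_nonneg_right q0 q2
      _ = N / W * Bm + N * K1 * ((1 / W) * ex) * T + N * (1 / W) * (|A1| / R) := by ring
      _ ≤ N / W * Bm + N * K1 * (W ^ 4 * ex) * T + N * 1 * (|A1| / R) := by
          gcongr
          exact hWinv1.trans hW4
      _ = _ := by ring
  have m3 : Cp * (1 / W + ε) * J + K3 * (1 / W + ε) * J
      ≤ (Cp + K3 + N * (1 + K1) + K4) * (1 / W + ε) * J := by
    have : 0 ≤ (N * (1 + K1) + K4) * (1 / W + ε) * J := by positivity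
    linarith [this, (by ring : (Cp + K3 + N * (1 + K1) + K4) * (1 / W + ε) * J
      = Cp * (1 / W + ε) * J + K3 * (1 / W + ε) * J + (N * (1 + K1) + K4) * (1 / W + ε) * J)]
  have m4 : N / W * Bm ≤ (Cp + K3 + N * (1 + K1) + K4) / W * Bm := by
    have : 0 ≤ (Cp + K3 + N * K1 + K4) / W * Bm := by positivity
    linarith [this, (by ring : (Cp + K3 + N * (1 + K1) + K4) / W * Bm
      = N / W * Bm + (Cp + K3 + N * K1 + K4) / W * Bm)]
  have m5 : N * K1 * (W ^ 4 * ex) * T + K4 * lam * W ^ 4 * T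
      + (K3 * lam * W ^ 4 + K3 * ex) * T
      ≤ ((Cp + K3 + N * (1 + K1) + K4) * lam * W ^ 4
          + (Cp + K3 + N * (1 + K1) + K4) * W ^ 4 * ex) * T := by
    have e1 : K3 * ex * T ≤ K3 * (W ^ 4 * ex) * T := by
      gcongr
      nlinarith
    have e2 : 0 ≤ (Cp + N * (1 + K1)) * lam * W ^ 4 * T
        + (Cp + N + K4) * W ^ 4 * ex * T := by positivity
    have e3 : ((Cp + K3 + N * (1 + K1) + K4) * lam * W ^ 4
          + (Cp + K3 + N * (1 + K1) + K4) * W ^ 4 * ex) * T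
        = N * K1 * (W ^ 4 * ex) * T + K4 * lam * W ^ 4 * T + K3 * lam * W ^ 4 * T
          + K3 * (W ^ 4 * ex) * T
          + ((Cp + N * (1 + K1)) * lam * W ^ 4 * T
            + (Cp + N + K4) * W ^ 4 * ex * T) := by ring
    rw [e3]
    linarith [e1, e2, (by ring : (K3 * lam * W ^ 4 + K3 * ex) * T
      = K3 * lam * W ^ 4 * T + K3 * ex * T)]
  have m6 : (N * |A1| + A2 + A3 + A4) / R = N * |A1| / R + A2 / R + A3 / R + A4 / R := by ring
  rw [m6]
  linarith [h0, h1a, h1b, h2, h3, h4, m1, m3, m4, m5]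

theorem sd1_of (hSC : StSC) (hPW : StPW) (hCDX : StCDX) (hMIS : StMIS) (hGw : StGw)
    (hT1 : StT1) (hT2 : StT2) (hT3 : StT3) (hT4 : StT4) : StSD1 := by
  intro CX s3 μ C1 hCX hs hμ hμ1 hC1
  obtain ⟨c2, Cp, ε0, hc2, hCp, hε0, hε02, HP⟩ := ptf_of hPW hCDX hs hμ hμ1 hC1
  obtain ⟨K1, hK1, H1⟩ := hT1 s3 C1 hs hC1
  obtain ⟨K3, W3, hK3, hW3, H3⟩ := hT3 s3 C1 μ Cp hs hC1 hμ hμ1 hCp
  obtain ⟨K4, hK4, H4⟩ := hT4 s3 C1 hs hC1
  set N : ℝ := 2 * CX * C1 + 3 * C1 with hN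
  have hN0 : 0 < N := by positivity
  refine ⟨1, c2, Cp + K3 + N * (1 + K1) + K4, ε0, one_pos, hc2, by positivity, hε0,
    fun ε he he' => ?_⟩
  obtain ⟨δp, hδp, HP⟩ := HP ε he he'
  obtain ⟨δm, Wm, hδm, hWm, HM⟩ := hMIS s3 ε hs he (by linarith)
  refine ⟨min (min δp δm) 1, max (max W3 C1) (max Wm 1), lt_min (lt_min hδp hδm) one_pos,
    min_le_right _ _, (le_max_right _ _).trans (le_max_right _ _), fun W hW => ?_⟩
  have hWW3 : W3 ≤ W := ((le_max_left _ _).trans (le_max_left _ _)).trans hW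
  have hWC : C1 ≤ W := ((le_max_right _ _).trans (le_max_left _ _)).trans hW
  have hWm' : Wm ≤ W := ((le_max_left _ _).trans (le_max_right _ _)).trans hW
  have hW1 : 1 ≤ W := ((le_max_right _ _).trans (le_max_right _ _)).trans hW
  have hW0 : 0 < W := by linarith
  obtain ⟨κm, hκm, HM⟩ := HM W hWm'
  refine ⟨min κm ε0, lt_min hκm hε0, fun κ hκ hκ' => ?_⟩
  obtain ⟨lm, hlm, HM⟩ := HM κ hκ (hκ'.trans (min_le_left _ _))
  refine ⟨min (min lm 1) (1 / (20 * W)), lt_min (lt_min hlm one_pos) (by positivity),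
    fun lam u B η w χ om hlam D => ?_⟩
  have hu : Sol u := D.hs.toSol
  have hl := D.hs.lt
  have hlam1 : lam ≤ 1 := hlam.trans ((min_le_left _ _).trans (min_le_right _ _))
  have hlamm : lam ≤ lm := hlam.trans ((min_le_left _ _).trans (min_le_left _ _))
  have hlW : lam * W ≤ 1 / 20 := by
    have h1 : lam ≤ 1 / (20 * W) := hlam.trans (min_le_right _ _)
    calc lam * W ≤ 1 / (20 * W) * W := by gcongr
      _ = 1 / 20 := by field_simp
  have hP : PtF s3 (μ / 8) c2 Cp ε κ W u B χ := HP κ W hκ (hκ'.trans (min_le_right _ _)) hW1 hWC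
    u B χ hu hl (fun x h1 h2 => (D.good x h1 h2).trans ((min_le_left _ _).trans (min_le_left _ _)))
    (D.chi2.of_le (by norm_num)) D.chib D.chid
  have hM : ∀ v : R3 → ℝ, Measurable v → (∀ x, |v x| ≤ 1) →
      (∀ x, v x ≠ 0 → Far B W x ∧ ¬ Far B (2 * W) x) →
      |(∫ s, w s) * (∫ x, Gw lam x ^ 2 * ff u x ^ 2 * v x)
        - ∫ x, w (phi u x) * rr u x * (Gw lam x * om x) ^ 2 *
            ∫ t, jj u x t * prf ε κ u x t ^ 2 * v (xt u x t)| ≤ Bmis W lam u B w := by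
    intro v hv1 hv2 hv3
    exact HM u D.hs B D.latt
      (fun x h1 h2 => (D.good x h1 h2).trans ((min_le_left _ _).trans (min_le_right _ _)))
      lam D.lam0 hlamm w D.wc D.wb D.ws om D.om2.continuous D.omb D.om0 D.om1 v hv1 hv2 hv3
  obtain ⟨A1, H1⟩ := H1 CX _ W lam (μ / 8) c2 Cp ε κ u B η w χ om hW1 hlW D hP hM
  obtain ⟨A2, H2⟩ := hT2 s3 C1 hs hC1 CX _ W lam (μ / 8) c2 Cp ε κ u B η w χ om hW1 hlW D hP
  obtain ⟨A3, H3⟩ := H3 CX _ W lam c2 ε κ u B η w χ om hWW3 hlW D hP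
  obtain ⟨A4, H4⟩ := H4 CX _ W lam u B η w χ om hW1 hlW D
  refine ⟨N * |A1| + A2 + A3 + A4, fun R b hR hb2 hb01 hb1 hb0 hbd hbdd => ?_⟩
  have hR0 : 0 < R := by linarith
  have hb : BDat C1 R b := ⟨hR, hb2, hb01, hb1, hb0, hbd, hbdd⟩
  have hdm := Fct.dmx_nonneg D hP
  set R' : ℝ := 2 * R + dmx ε κ + 1 with hR'
  obtain ⟨X, hX, hXb, hXR⟩ := D.hyp R' (1 / R) (by positivity) (by positivity)
  have hG2 : ContDiff ℝ 2 (fun y => Gw lam y * b y) :=
    (by exact_mod_cast (hGw lam D.lam0 hlam1).1 2 : ContDiff ℝ 2 (Gw lam)).mul hb2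
  have hGsup : ∀ x, 2 * R ≤ eno x → Gw lam x * b x = 0 := fun x hx => by rw [hb0 x hx, mul_zero]
  have hGcl : tsupport (fun y => Gw lam y * b y) ⊆ {x | eno x ≤ 2 * R} := by
    refine closure_minimal (fun x hx => ?_) (isClosed_le continuous_eno continuous_const)
    by_contra hc
    simp only [Set.mem_setOf_eq, not_le] at hc
    exact hx (hGsup x hc.le)
  have hGc : HasCompactSupport (fun y => Gw lam y * b y) :=
    (Fct.isCompact_eno (2 * R)).of_isClosed_subset (isClosed_tsupport _) hGcl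
  have hcw : 0 ≤ ∫ s, w s := integral_nonneg fun s => (D.wb s).1
  have hsc := hSC u hu hl X R' (1 / R) hX hXR w D.wc (fun s => (D.wb s).1) (∫ s, w s) hcw χ D.chi2
    D.chib (fun y => Gw lam y * b y) hG2 hGc
    (fun x hx => Fct.mem_box_of_eno (by
      have : eno x ≤ 2 * R := hGcl hx
      linarith))
    (PhE s3 ε κ u η om b) (Fct.phe_cd D hP hs hb) (Fct.phe_cs D hP hb)
    (fun z hz => ⟨(Fct.phe_good D hP hs hb hz).1, (Fct.phe_good D hP hs hb hz).2,
      (Fct.phe_box D hP hs hb hz).2⟩)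
  -- T1 for `X · Dχ`
  have hgr : ∀ x, eno (fun i => pd i χ x) ≤ 2 * (C1 / W) := fun x =>
    eno_grad_le (by positivity) (fun i => D.chid x i)
  have h1a := H1 R b hb (2 * CX * C1 / W) (fun x => ∑ i, X x i * pd i χ x) (by positivity)
    (continuous_finsetSum _ fun i _ => (contDiff_pi.mp hX i).continuous.mul
      (continuous_pd (D.chi2.of_le (by norm_num))))
    (fun x hx => by
      refine (dot_le_eno _ _).trans ?_
      have e1 := hXb x (Fct.mem_box_of_eno hx)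
      calc eno (X x) * eno (fun i => pd i χ x) ≤ CX * (2 * (C1 / W)) :=
            mul_le_mul e1 (hgr x) (eno_nonneg _) hCX.le
        _ = 2 * CX * C1 / W := by ring)
    (fun x hx => by
      obtain ⟨i, -, hi⟩ := Finset.exists_ne_zero_of_sum_ne_zero hx
      obtain ⟨k1, k2⟩ := Fct.chi_pd D (right_ne_zero_of_mul hi)
      exact ⟨k1, fun hc => k2 (Fct.far_mono hc (by linarith))⟩)
  -- T1 for `Δχ`
  have h1b := H1 R b hb (3 * C1 / W) (lap χ) (by positivity) (continuous_lap D.chi2)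
    (fun x _ => by
      refine (lap_le (fun i j => D.chidd x i j)).trans ?_
      have : C1 / W ^ 2 ≤ C1 / W := by
        apply div_le_div_of_nonneg_left hC1.le hW0
        nlinarith
      calc 3 * (C1 / W ^ 2) ≤ 3 * (C1 / W) := by linarith
        _ = 3 * C1 / W := by ring)
    (fun x hx => Fct.chi_lap D hW0 hx)
  have h2 := H2 R b hb (1 / R) (by positivity) le_rfl
  have h3 := H3 R b hb
  have h4 := H4 R b hb (1 / R) (by positivity) le_rfl
  -- conclusion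
  have hT0 : 0 ≤ ∑' b : B, Gw lam b ^ 2 := tsum_nonneg fun b => sq_nonneg _
  have hJ : 0 ≤ ∫ x, w (phi u x) * rr u x * (η x * om x) ^ 2 * (qq u x + κ ^ 2) := by
    refine integral_nonneg fun x => ?_
    have h3 := (D.wb (phi u x)).1
    have h4 := H147.rr_nonneg u x
    have h5 := H147.qq_nonneg hu hl x
    positivity
  have hBm : 0 ≤ Bmis W lam u B w := by
    unfold Bmis
    have k1 : 0 ≤ ∫ x, iA B (W / 2) (3 * W) x *
        (w (phi u x) * rr u x * qq u x * Gw lam x ^ 2) := by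
      refine integral_nonneg fun x => ?_
      have h3 := (D.wb (phi u x)).1
      have h4 := H147.rr_nonneg u x
      have h5 := H147.qq_nonneg hu hl x
      have h6 : 0 ≤ iA B (W / 2) (3 * W) x := by
        unfold iA; split_ifs <;> norm_num
      positivity
    positivity
  exact sd1_alg hW1 he D.lam0 hR0 hCp hK1 hK3 hK4 hCX hC1 (Real.exp_pos _) hT0 hJ hBm rfl hsc
    (abs_le.mp h1a).1 (abs_le.mp h1b).1 h2 h3 h4

end Vale.Agent.P134.H88
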